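import Mathlib

/-!
P322, potential method.  Two polynomial inequalities.
-/

namespace Vale.Agent.Lib.P322.Pot

lemma cubic_nonneg {A B C θ t : ℝ} (hA : 0 ≤ A) (hθ0 : 0 ≤ θ) (hθ1 : θ ≤ 1) (ht : 0 ≤ t)
    (hz : 0 ≤ C - 2 * A * t ^ 3) (ho : 0 ≤ C - 2 * A * t ^ 3 + B + 3 * A * t ^ 2) :
    0 ≤ A * θ ^ 3 + B * θ + C := by
  have h1 : 0 ≤ A * ((θ - t) ^ 2 * (θ + 2 * t)) := by positivity
  have h2 : 0 ≤ (1 - θ) * (C - 2 * A * t ^ 3) := mul_nonneg (by linarith) hz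
  have h3 : 0 ≤ θ * (C - 2 * A * t ^ 3 + B + 3 * A * t ^ 2) := mul_nonneg hθ0 ho
  nlinarith [h1, h2, h3]

lemma ax_piece {θ m f : ℝ} (a b K t : ℝ) (hθ0 : 0 ≤ θ) (hθ1 : θ ≤ 1)
    (ha : 0 ≤ a) (ham : a ≤ m) (hmb : m ≤ b) (hK0 : 0 ≤ K) (hK : (K + 1) * b ≤ 1) (ht : 0 ≤ t)
    (hz : 0 ≤ (2 * (121 / 100) * (1 / 2 + a / 12 + a ^ 2 / 30 + a ^ 3 / 56 + a ^ 4 / 90 + a ^ 5 / 132) - 1)
      - 2 * (2 * (31 / 100) * K) * t ^ 3)
    (ho : 0 ≤ (2 * (121 / 100) * (1 / 2 + a / 12 + a ^ 2 / 30 + a ^ 3 / 56 + a ^ 4 / 90 + a ^ 5 / 132) - 1)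
      - 2 * (2 * (31 / 100) * K) * t ^ 3
      + (2 * (121 / 100) * (31 / 100)
          * (1 / 2 + a / 12 + a ^ 2 / 30 + a ^ 3 / 56 + a ^ 4 / 90 + a ^ 5 / 132) - 1)
      + 3 * (2 * (31 / 100) * K) * t ^ 2)
    (hf : m / 2 + m ^ 2 / 12 + m ^ 3 / 30 + m ^ 4 / 56 + m ^ 5 / 90 + m ^ 6 / 132 ≤ f) :
    0 ≤ 2 * (31 / 100) * (1 - m) * θ ^ 3 + θ * (2 * (121 / 100) * (31 / 100) * f - m)
      + 2 * (121 / 100) * f - m := by
  set P : ℝ := 1 / 2 + a / 12 + a ^ 2 / 30 + a ^ 3 / 56 + a ^ 4 / 90 + a ^ 5 / 132 with hP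
  have hm0 : 0 ≤ m := ha.trans ham
  have hq := cubic_nonneg (A := 2 * (31 / 100) * K) (B := 2 * (121 / 100) * (31 / 100) * P - 1)
    (C := 2 * (121 / 100) * P - 1) (by positivity) hθ0 hθ1 ht hz ho
  have hPm : P ≤ 1 / 2 + m / 12 + m ^ 2 / 30 + m ^ 3 / 56 + m ^ 4 / 90 + m ^ 5 / 132 := by
    have h2 : a ^ 2 ≤ m ^ 2 := pow_le_pow_left₀ ha ham 2
    have h3 : a ^ 3 ≤ m ^ 3 := pow_le_pow_left₀ ha ham 3
    have h4 : a ^ 4 ≤ m ^ 4 := pow_le_pow_left₀ ha ham 4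
    have h5 : a ^ 5 ≤ m ^ 5 := pow_le_pow_left₀ ha ham 5
    rw [hP]; linarith
  have hfP : m * P ≤ f := by
    have := mul_le_mul_of_nonneg_left hPm hm0
    have e : m * (1 / 2 + m / 12 + m ^ 2 / 30 + m ^ 3 / 56 + m ^ 4 / 90 + m ^ 5 / 132)
      = m / 2 + m ^ 2 / 12 + m ^ 3 / 30 + m ^ 4 / 56 + m ^ 5 / 90 + m ^ 6 / 132 := by ring
    linarith
  have hKm : K * m ≤ 1 - m := by
    have : (K + 1) * m ≤ (K + 1) * b := mul_le_mul_of_nonneg_left hmb (by linarith)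
    linarith
  have h1 : 0 ≤ 2 * (31 / 100) * (1 - m - K * m) * θ ^ 3 := by
    have : 0 ≤ 1 - m - K * m := by linarith
    positivity
  have h2 : 0 ≤ (2 * (121 / 100) * (31 / 100) * θ + 2 * (121 / 100)) * (f - m * P) := by
    have : 0 ≤ f - m * P := by linarith
    positivity
  have h3 := mul_nonneg hm0 hq
  nlinarith [h1, h2, h3]

/-- Polynomial inequality on the unit square (numerically the minimum of the right side divided by `m`
is about `0.055`, near `θ = 1`, `m = 0.9`).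

Suggested proof.  With `E = 31/100`, `S = 121/100`, `g = 2 S f - m` the claim reads
`(1 - E) m θ ≤ g (1 + E θ) + 2 E (1 - m) θ^3`.
Split `m` into intervals `[m_i, m_{i+1}]`
(for instance `0, 0.43, 0.66, 0.78, 0.88, 0.96, 1`); on each one `g ≥ G_i m` with
`G_i = 2 S (1/2 + m_i/12 + m_i^2/30 + ...) - 1` and `1 - m ≥ (1/m_{i+1} - 1) m`, so that it is enough to
show the cubic inequality `(1 - E) θ ≤ G_i (1 + E θ) + 2 E (1/m_{i+1} - 1) θ^3` on `[0,1]`, which follows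
from `θ^3 ≥ 3 θ0^2 θ - 2 θ0^3` (that is `(θ - θ0)^2 (θ + 2 θ0) ≥ 0`) for a suitable constant `θ0`. -/
lemma ax {θ m f : ℝ} (hθ0 : 0 ≤ θ) (hθ1 : θ ≤ 1) (hm0 : 0 ≤ m) (hm1 : m ≤ 1)
    (hf : m / 2 + m ^ 2 / 12 + m ^ 3 / 30 + m ^ 4 / 56 + m ^ 5 / 90 + m ^ 6 / 132 ≤ f) :
    0 ≤ 2 * (31 / 100) * (1 - m) * θ ^ 3 + θ * (2 * (121 / 100) * (31 / 100) * f - m)
      + 2 * (121 / 100) * f - m := by
  rcases le_total m (19 / 50) with h1 | h1
  · exact ax_piece 0 (19 / 50) (31 / 19) (9 / 20) hθ0 hθ1 le_rfl hm0 h1 (by norm_num) (by norm_num)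
      (by norm_num) (by norm_num) (by norm_num) hf
  rcases le_total m (31 / 50) with h2 | h2
  · exact ax_piece (19 / 50) (31 / 50) (19 / 31) (7 / 10) hθ0 hθ1 (by norm_num) h1 h2 (by norm_num)
      (by norm_num) (by norm_num) (by norm_num) (by norm_num) hf
  rcases le_total m (19 / 25) with h3 | h3
  · exact ax_piece (31 / 50) (19 / 25) (6 / 19) (19 / 20) hθ0 hθ1 (by norm_num) h2 h3 (by norm_num)
      (by norm_num) (by norm_num) (by norm_num) (by norm_num) hf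
  rcases le_total m (21 / 25) with h4 | h4
  · exact ax_piece (19 / 25) (21 / 25) (4 / 21) 1 hθ0 hθ1 (by norm_num) h3 h4 (by norm_num)
      (by norm_num) (by norm_num) (by norm_num) (by norm_num) hf
  rcases le_total m (91 / 100) with h5 | h5
  · exact ax_piece (21 / 25) (91 / 100) (9 / 91) 1 hθ0 hθ1 (by norm_num) h4 h5 (by norm_num)
      (by norm_num) (by norm_num) (by norm_num) (by norm_num) hf
  rcases le_total m (99 / 100) with h6 | h6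
  · exact ax_piece (91 / 100) (99 / 100) (1 / 99) 1 hθ0 hθ1 (by norm_num) h5 h6 (by norm_num)
      (by norm_num) (by norm_num) (by norm_num) (by norm_num) hf
  · exact ax_piece (99 / 100) 1 0 0 hθ0 hθ1 (by norm_num) h6 hm1 (by norm_num)
      (by norm_num) (by norm_num) (by norm_num) (by norm_num) hf

lemma affine_nonneg {α β x a b : ℝ} (hax : a ≤ x) (hxb : x ≤ b) (ha : 0 ≤ α + β * a)
    (hb : 0 ≤ α + β * b) : 0 ≤ α + β * x := by
  rcases le_total 0 β with h | h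
  · have := mul_le_mul_of_nonneg_left hax h
    linarith
  · have := mul_le_mul_of_nonpos_left hxb h
    linarith

/-- Consequence of `ax`.  The right side is nondecreasing in `e0` and in `σ` (use `X ≤ w`, `0 ≤ X`), so
take `e0 = 31/100`, `σ = 121/100`.  It is affine in `X`; at `X = w` it equals `2 σ f w ≥ σ m w ≥ m w`, and at
`X = 1 - θ`, `θ = sqrt (1 - w)`, `w = 1 - θ^2`, right side minus left side equals `(1 - θ)` times the
expression of `ax`. -/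
lemma starstar {e0 σ w X m f : ℝ} (he0 : 31 / 100 ≤ e0) (he1 : e0 ≤ 1) (hσ : 121 / 100 ≤ σ)
    (hw0 : 0 ≤ w) (hw1 : w ≤ 1) (hX0 : 1 - Real.sqrt (1 - w) ≤ X) (hX1 : X ≤ w)
    (hm0 : 0 ≤ m) (hm1 : m ≤ 1)
    (hf : m / 2 + m ^ 2 / 12 + m ^ 3 / 30 + m ^ 4 / 56 + m ^ 5 / 90 + m ^ 6 / 132 ≤ f) :
    m * w ≤ 2 * (1 - m) * e0 * (1 - w) * (w - X) + 2 * σ * f * ((1 - e0) * X + e0 * w) := by
  set θ : ℝ := Real.sqrt (1 - w) with hθ
  have hθ0 : 0 ≤ θ := Real.sqrt_nonneg _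
  have hθsq : θ ^ 2 = 1 - w := Real.sq_sqrt (by linarith)
  have hθ1 : θ ≤ 1 := by
    rw [hθ]
    exact Real.sqrt_le_one.mpr (by linarith) 
  have hw : w = 1 - θ ^ 2 := by linarith
  have hXn : 0 ≤ X := by linarith
  have hfm : m / 2 ≤ f := by
    have : 0 ≤ m ^ 2 / 12 + m ^ 3 / 30 + m ^ 4 / 56 + m ^ 5 / 90 + m ^ 6 / 132 := by positivity
    linarith
  have hf0 : 0 ≤ f := by linarith
  -- base case with the extreme constants
  have base : 0 ≤ (2 * (1 - m) * (31 / 100) * (1 - w) * w + 2 * (121 / 100) * f * ((31 / 100) * w)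
      - m * w) + (-(2 * (1 - m) * (31 / 100) * (1 - w)) + 2 * (121 / 100) * f * (1 - 31 / 100)) * X := by
    refine affine_nonneg hX0 hX1 ?_ ?_
    · have h := mul_nonneg (sub_nonneg.mpr hθ1) (ax hθ0 hθ1 hm0 hm1 hf)
      rw [hw]
      nlinarith [h]
    · have : 0 ≤ w * (2 * (121 / 100) * f - m) := mul_nonneg hw0 (by linarith)
      nlinarith [this]
  -- monotonicity in the two constants
  have h1 : 0 ≤ (e0 - 31 / 100) * ((2 * (1 - m) * (1 - w) + 2 * (121 / 100) * f) * (w - X)) := by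
    have a1 : 0 ≤ e0 - 31 / 100 := by linarith
    have a2 : 0 ≤ 1 - m := by linarith
    have a3 : 0 ≤ 1 - w := by linarith
    have a4 : 0 ≤ w - X := by linarith
    positivity
  have h2 : 0 ≤ (σ - 121 / 100) * (2 * f * ((1 - e0) * X + e0 * w)) := by
    have a1 : 0 ≤ σ - 121 / 100 := by linarith
    have a2 : 0 ≤ 1 - e0 := by linarith
    have a3 : 0 ≤ e0 := by linarith
    positivity
  nlinarith [base, h1, h2]

end Vale.Agent.Lib.P322.Pot
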