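import Vale.Agent.Lib.P322.TwoPoint

/-!
P322, potential method.  The quadratic potential `ub lam J = (log 2 - lam) J + lam J^2`
and its inverse `Jb lam` on `[0,∞)`.  Here `lam` stands for `Lam ρ` (so `0 ≤ lam < log 2`).
-/

namespace Vale.Agent.Lib.P322.Pot

open Real

/-- The quadratic potential. -/
noncomputable def ub (lam J : ℝ) : ℝ := (Real.log 2 - lam) * J + lam * J ^ 2

/-- The inverse of `ub lam` on the nonnegative reals. -/
noncomputable def Jb (lam r : ℝ) : ℝ :=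
  2 * r / ((Real.log 2 - lam) + Real.sqrt ((Real.log 2 - lam) ^ 2 + 4 * lam * r))

lemma Jb_nonneg {lam r : ℝ} (h0 : 0 ≤ lam) (h1 : lam < Real.log 2) (hr : 0 ≤ r) :
    0 ≤ Jb lam r := by
  unfold Jb
  have h : 0 < Real.log 2 - lam := sub_pos.2 h1
  exact div_nonneg (by positivity) (add_nonneg h.le (Real.sqrt_nonneg _))

/-- With `s = sqrt (h^2 + 4 lam r)` one has `Jb = 2 r / (h + s)` and `s^2 - h^2 = 4 lam r`. -/
lemma ub_Jb {lam r : ℝ} (h0 : 0 ≤ lam) (h1 : lam < Real.log 2) (hr : 0 ≤ r) :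
    ub lam (Jb lam r) = r := by
  unfold ub Jb
  have h : 0 < Real.log 2 - lam := sub_pos.2 h1
  set hh := Real.log 2 - lam with hhh
  have hs : Real.sqrt (hh ^ 2 + 4 * lam * r) ^ 2 = hh ^ 2 + 4 * lam * r :=
    Real.sq_sqrt (by positivity)
  have hs0 : 0 ≤ Real.sqrt (hh ^ 2 + 4 * lam * r) := Real.sqrt_nonneg _
  set s := Real.sqrt (hh ^ 2 + 4 * lam * r) with hsdef
  have hD : hh + s ≠ 0 := by positivity
  have e : hh * (2 * r / (hh + s)) + lam * (2 * r / (hh + s)) ^ 2 - r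
      = r * (hh ^ 2 + 4 * lam * r - s ^ 2) / (hh + s) ^ 2 := by
    field_simp
    ring
  have : hh * (2 * r / (hh + s)) + lam * (2 * r / (hh + s)) ^ 2 - r = 0 := by
    rw [e, hs]; simp
  linarith

lemma ub_lt_ub {lam J1 J2 : ℝ} (h0 : 0 ≤ lam) (h1 : lam < Real.log 2) (hJ1 : 0 ≤ J1)
    (h : J1 < J2) : ub lam J1 < ub lam J2 := by
  unfold ub
  have hh : 0 < Real.log 2 - lam := sub_pos.2 h1
  have e : ((Real.log 2 - lam) * J2 + lam * J2 ^ 2) - ((Real.log 2 - lam) * J1 + lam * J1 ^ 2)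
      = (J2 - J1) * ((Real.log 2 - lam) + lam * (J1 + J2)) := by ring
  have h2 : 0 < (J2 - J1) * ((Real.log 2 - lam) + lam * (J1 + J2)) := by
    have : 0 ≤ lam * (J1 + J2) := mul_nonneg h0 (by linarith)
    exact mul_pos (sub_pos.2 h) (by linarith)
  linarith

lemma le_of_ub_le_ub {lam J1 J2 : ℝ} (h0 : 0 ≤ lam) (h1 : lam < Real.log 2)
    (hJ2 : 0 ≤ J2) (h : ub lam J1 ≤ ub lam J2) : J1 ≤ J2 := by
  by_contra hc
  exact absurd (ub_lt_ub h0 h1 hJ2 (not_le.1 hc)) (not_lt.2 h)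

lemma le_Jb {lam r J : ℝ} (h0 : 0 ≤ lam) (h1 : lam < Real.log 2) (hr : 0 ≤ r)
    (h : ub lam J ≤ r) : J ≤ Jb lam r :=
  le_of_ub_le_ub h0 h1 (Jb_nonneg h0 h1 hr) (by rw [ub_Jb h0 h1 hr]; exact h)

lemma Jb_le {lam r J : ℝ} (h0 : 0 ≤ lam) (h1 : lam < Real.log 2) (hr : 0 ≤ r) (hJ : 0 ≤ J)
    (h : r ≤ ub lam J) : Jb lam r ≤ J :=
  le_of_ub_le_ub h0 h1 hJ (by rw [ub_Jb h0 h1 hr]; exact h)

lemma Jb_log_two {lam : ℝ} (h0 : 0 ≤ lam) (h1 : lam < Real.log 2) : Jb lam (Real.log 2) = 1 := by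
  have hl : 0 ≤ Real.log 2 := le_trans h0 h1.le
  have e : ub lam 1 = Real.log 2 := by unfold ub; ring
  exact le_antisymm (Jb_le h0 h1 hl zero_le_one e.ge) (le_Jb h0 h1 hl e.le)

lemma Jb_le_one {lam r : ℝ} (h0 : 0 ≤ lam) (h1 : lam < Real.log 2) (hr : 0 ≤ r)
    (hr1 : r ≤ Real.log 2) : Jb lam r ≤ 1 := by
  have e : ub lam 1 = Real.log 2 := by unfold ub; ring
  exact Jb_le h0 h1 hr zero_le_one (by rw [e]; exact hr1)

/-- The real-number part of the induction step.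
Put `h = log 2 - lam`, `b = γ / h`, `J = Jb r`, `Jp = Jb rp`, `Jm = Jb rm`, `A = (Jp + Jm) / 2`.
Convexity of `ub`: `ub A ≤ (ub Jp + ub Jm) / 2 = r + α + γ`; by `hstar`,
`ub (J + b) = r + γ + lam (b^2 + 2 b J) ≥ r + γ + α`; hence `A ≤ J + b`.
Then `lam ((Jp^2 + Jm^2)/2 - J^2) = α + h (b + J - A) ≥ α`. -/
lemma step_real {lam r rp rm α γ sp sm : ℝ} (h0 : 0 ≤ lam) (h1 : lam < Real.log 2)
    (hr : 0 ≤ r) (hrp : 0 ≤ rp) (hrm : 0 ≤ rm) (hγ : 0 ≤ γ)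
    (hbar : (rp + rm) / 2 = r + α + γ)
    (hsp : sp ≤ lam * (1 - Jb lam rp ^ 2)) (hsm : sm ≤ lam * (1 - Jb lam rm ^ 2))
    (hstar : α ≤ lam * (γ / (Real.log 2 - lam)) * (γ / (Real.log 2 - lam) + 2 * Jb lam r)) :
    α + (sp + sm) / 2 ≤ lam * (1 - Jb lam r ^ 2) := by
  have hh : 0 < Real.log 2 - lam := sub_pos.2 h1
  have hJ := Jb_nonneg h0 h1 hr
  have eJ := ub_Jb h0 h1 hr
  have eJp := ub_Jb h0 h1 hrp
  have eJm := ub_Jb h0 h1 hrm
  set J := Jb lam r with hJdef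
  set Jp := Jb lam rp with hJpdef
  set Jm := Jb lam rm with hJmdef
  set b := γ / (Real.log 2 - lam) with hb
  have hb0 : 0 ≤ b := div_nonneg hγ hh.le
  have hbγ : (Real.log 2 - lam) * b = γ := by
    rw [hb]; field_simp
  unfold ub at eJ eJp eJm
  -- convexity
  have hconv : ub lam ((Jp + Jm) / 2) ≤ r + α + γ := by
    unfold ub
    have : 0 ≤ lam * (Jp - Jm) ^ 2 := mul_nonneg h0 (sq_nonneg _)
    nlinarith
  have hup : r + α + γ ≤ ub lam (J + b) := by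
    unfold ub
    nlinarith
  have hA : (Jp + Jm) / 2 ≤ J + b :=
    le_of_ub_le_ub h0 h1 (add_nonneg hJ hb0) (le_trans hconv hup)
  have hfin : 0 ≤ (Real.log 2 - lam) * (J + b - (Jp + Jm) / 2) :=
    mul_nonneg hh.le (sub_nonneg.2 hA)
  nlinarith

end Vale.Agent.Lib.P322.Pot
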