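import Vale.Agent.Lib.P322.KeyMu

/-!
P322, potential method.  An algebraic lower bound for `Lam`, sharp to second order at `0` and exact at `1`.
-/

namespace Vale.Agent.Lib.P322.Pot

open Real Set Vale.Agent.Lib.P322

lemma le_of_deriv_nonneg' {f f' : ℝ → ℝ} {a b : ℝ} (hab : a ≤ b) (hc : ContinuousOn f (Icc a b))
    (hd : ∀ x ∈ Ioo a b, HasDerivAt f (f' x) x) (hpos : ∀ x ∈ Ioo a b, 0 ≤ f' x) :
    f a ≤ f b := by
  have m : MonotoneOn f (Icc a b) := by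
    apply monotoneOn_of_deriv_nonneg (convex_Icc a b) hc
    · intro x hx
      rw [interior_Icc] at hx
      exact (hd x hx).differentiableAt.differentiableWithinAt
    · intro x hx
      rw [interior_Icc] at hx
      rw [(hd x hx).deriv]
      exact hpos x hx
  exact m (left_mem_Icc.2 hab) (right_mem_Icc.2 hab) hab

lemma ge_of_deriv_nonpos' {f f' : ℝ → ℝ} {a b : ℝ} (hab : a ≤ b) (hc : ContinuousOn f (Icc a b))
    (hd : ∀ x ∈ Ioo a b, HasDerivAt f (f' x) x) (hneg : ∀ x ∈ Ioo a b, f' x ≤ 0) :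
    f b ≤ f a := by
  have m : AntitoneOn f (Icc a b) := by
    apply antitoneOn_of_deriv_nonpos (convex_Icc a b) hc
    · intro x hx
      rw [interior_Icc] at hx
      exact (hd x hx).differentiableAt.differentiableWithinAt
    · intro x hx
      rw [interior_Icc] at hx
      rw [(hd x hx).deriv]
      exact hneg x hx
  exact m (left_mem_Icc.2 hab) (right_mem_Icc.2 hab) hab

/-- A function on `[0,1]` vanishing at both ends, with vanishing derivative at `0`, whose second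
derivative has the sign of an antitone function, is nonnegative. -/
lemma nonneg_of_convex_concave {D D1 D2 Qf : ℝ → ℝ}
    (hc : ContinuousOn D (Icc (0:ℝ) 1))
    (h1 : ∀ t ∈ Ico (0:ℝ) 1, HasDerivAt D (D1 t) t)
    (h2 : ∀ t ∈ Ico (0:ℝ) 1, HasDerivAt D1 (D2 t) t)
    (hQ : AntitoneOn Qf (Ico (0:ℝ) 1))
    (hp : ∀ t ∈ Ico (0:ℝ) 1, 0 ≤ Qf t → 0 ≤ D2 t)
    (hn : ∀ t ∈ Ico (0:ℝ) 1, Qf t ≤ 0 → D2 t ≤ 0)
    (h0 : D 0 = 0) (h10 : D1 0 = 0) (h11 : D 1 = 0) :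
    ∀ t ∈ Ico (0:ℝ) 1, 0 ≤ D t := by
  have c1 : ∀ a b : ℝ, 0 ≤ a → b < 1 → ContinuousOn D1 (Icc a b) := by
    intro a b ha hb x hx
    exact (h2 x ⟨le_trans ha hx.1, lt_of_le_of_lt hx.2 hb⟩).continuousAt.continuousWithinAt
  have A1 : ∀ t ∈ Ico (0:ℝ) 1, 0 ≤ Qf t → 0 ≤ D1 t := by
    intro t ht hq
    have := le_of_deriv_nonneg' (f := D1) (f' := D2) ht.1 (c1 0 t le_rfl ht.2)
      (fun x hx => h2 x ⟨hx.1.le, hx.2.trans ht.2⟩)
      (fun x hx => hp x ⟨hx.1.le, hx.2.trans ht.2⟩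
        (le_trans hq (hQ ⟨hx.1.le, hx.2.trans ht.2⟩ ht hx.2.le)))
    linarith
  have A2 : ∀ t ∈ Ico (0:ℝ) 1, (∀ τ ∈ Icc (0:ℝ) t, 0 ≤ D1 τ) → 0 ≤ D t := by
    intro t ht hτ
    have := le_of_deriv_nonneg' (f := D) (f' := D1) ht.1
      (hc.mono (Icc_subset_Icc le_rfl ht.2.le))
      (fun x hx => h1 x ⟨hx.1.le, hx.2.trans ht.2⟩)
      (fun x hx => hτ x ⟨hx.1.le, hx.2.le⟩)
    linarith
  intro t ht
  by_cases hq : 0 ≤ Qf t
  · apply A2 t ht
    intro τ hτ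
    have hτ' : τ ∈ Ico (0:ℝ) 1 := ⟨hτ.1, lt_of_le_of_lt hτ.2 ht.2⟩
    exact A1 τ hτ' (le_trans hq (hQ hτ' ht hτ.2))
  · push Not at hq
    by_cases hd : D1 t ≤ 0
    · have hD1 : ∀ x ∈ Ioo t 1, D1 x ≤ 0 := by
        intro x hx
        have := ge_of_deriv_nonpos' (f := D1) (f' := D2) hx.1.le (c1 t x ht.1 hx.2)
          (fun y hy => h2 y ⟨le_trans ht.1 hy.1.le, hy.2.trans hx.2⟩)
          (fun y hy => hn y ⟨le_trans ht.1 hy.1.le, hy.2.trans hx.2⟩
            (le_trans (hQ ht ⟨le_trans ht.1 hy.1.le, hy.2.trans hx.2⟩ hy.1.le) hq.le))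
        linarith
      have := ge_of_deriv_nonpos' (f := D) (f' := D1) ht.2.le
        (hc.mono (Icc_subset_Icc ht.1 le_rfl))
        (fun x hx => h1 x ⟨le_trans ht.1 hx.1.le, hx.2⟩) hD1
      linarith
    · push Not at hd
      apply A2 t ht
      intro τ hτ
      have hτ' : τ ∈ Ico (0:ℝ) 1 := ⟨hτ.1, lt_of_le_of_lt hτ.2 ht.2⟩
      by_cases hqτ : 0 ≤ Qf τ
      · exact A1 τ hτ' hqτ
      · push Not at hqτ
        have := ge_of_deriv_nonpos' (f := D1) (f' := D2) hτ.2 (c1 τ t hτ.1 ht.2)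
          (fun y hy => h2 y ⟨le_trans hτ.1 hy.1.le, hy.2.trans ht.2⟩)
          (fun y hy => hn y ⟨le_trans hτ.1 hy.1.le, hy.2.trans ht.2⟩
            (le_trans (hQ hτ' ⟨le_trans hτ.1 hy.1.le, hy.2.trans ht.2⟩ hy.1.le) hqτ.le))
        linarith

lemma hasDerivAt_sqrt_one_sub_sq {t : ℝ} (h : 0 < 1 - t ^ 2) :
    HasDerivAt (fun s : ℝ => Real.sqrt (1 - s ^ 2)) (-(t / Real.sqrt (1 - t ^ 2))) t := by
  have c : HasDerivAt (fun s : ℝ => 1 - s ^ 2) (-(2 * t)) t := by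
    exact (((hasDerivAt_id t).pow 2).const_sub 1).congr_deriv (by simp)
  have hw : 0 < Real.sqrt (1 - t ^ 2) := Real.sqrt_pos.2 h
  refine (c.sqrt h.ne').congr_deriv ?_
  field_simp

lemma hasDerivAt_div_sqrt_one_sub_sq {t : ℝ} (h : 0 < 1 - t ^ 2) :
    HasDerivAt (fun s : ℝ => s / Real.sqrt (1 - s ^ 2))
      (1 / ((1 - t ^ 2) * Real.sqrt (1 - t ^ 2))) t := by
  have hw : 0 < Real.sqrt (1 - t ^ 2) := Real.sqrt_pos.2 h
  have hsq : Real.sqrt (1 - t ^ 2) ^ 2 = 1 - t ^ 2 := Real.sq_sqrt h.le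
  refine ((hasDerivAt_id t).div (hasDerivAt_sqrt_one_sub_sq h) hw.ne').congr_deriv ?_
  simp only [id]
  rw [hsq]
  field_simp
  rw [hsq]
  ring

theorem E1_pos {t : ℝ} (h0 : 0 ≤ t) (h1 : t ≤ 1) :
    Real.log 2 - (2 * Real.log 2 - 1) * Real.sqrt (1 - t ^ 2) - (1 - Real.log 2) * (1 - t ^ 2)
      ≤ Lam t := by
  have hl : Real.log 2 ≤ 1 := by
    have := Real.log_two_lt_d9
    linarith
  set c : ℝ := 2 * Real.log 2 - 1 with hcdef
  have hc1 : 0 ≤ 1 - c := by rw [hcdef]; linarith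
  have hlog : 1 - Real.log 2 = (1 - c) / 2 := by rw [hcdef]; ring
  have hlog2 : Real.log 2 = (1 + c) / 2 := by rw [hcdef]; ring
  have hcont : Continuous (fun s : ℝ => Lam s - (1 + c) / 2 + c * Real.sqrt (1 - s ^ 2)
      + (1 - c) / 2 * (1 - s ^ 2)) := by
    have : Continuous (fun s : ℝ => Real.sqrt (1 - s ^ 2)) := by fun_prop
    exact ((continuous_Lam.sub continuous_const).add (this.const_mul c)).add (by fun_prop)
  have key : ∀ s ∈ Ico (0:ℝ) 1, 0 ≤ Lam s - (1 + c) / 2 + c * Real.sqrt (1 - s ^ 2)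
      + (1 - c) / 2 * (1 - s ^ 2) := by
    apply nonneg_of_convex_concave
      (D1 := fun s => Lam1 s + c * (-(s / Real.sqrt (1 - s ^ 2))) + (1 - c) / 2 * (-(2 * s)))
      (D2 := fun s => 1 / (1 - s ^ 2) + c * (-(1 / ((1 - s ^ 2) * Real.sqrt (1 - s ^ 2))))
        + (1 - c) / 2 * (-2))
      (Qf := fun s => (1 - c) * (Real.sqrt (1 - s ^ 2) ^ 2 + Real.sqrt (1 - s ^ 2)) - c)
    · exact hcont.continuousOn
    · intro s hs
      have hs2 : 0 < 1 - s ^ 2 := by nlinarith [hs.1, hs.2]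
      have a := hasDerivAt_Lam (t := s) (by linarith [hs.1]) hs.2
      have b := hasDerivAt_sqrt_one_sub_sq hs2
      have d : HasDerivAt (fun s : ℝ => 1 - s ^ 2) (-(2 * s)) s := by
        exact (((hasDerivAt_id s).pow 2).const_sub 1).congr_deriv (by simp)
      exact ((a.sub_const _).add (b.const_mul c)).add (d.const_mul _)
    · intro s hs
      have hs2 : 0 < 1 - s ^ 2 := by nlinarith [hs.1, hs.2]
      have a := hasDerivAt_Lam1 (t := s) (by linarith [hs.1]) hs.2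
      have b := hasDerivAt_div_sqrt_one_sub_sq hs2
      have d : HasDerivAt (fun s : ℝ => -(2 * s)) (-2) s := by
        exact (((hasDerivAt_id s).const_mul 2).neg).congr_deriv (by simp)
      exact (a.add (b.neg.const_mul c)).add (d.const_mul _)
    · intro x hx y hy hxy
      have h2 : 1 - y ^ 2 ≤ 1 - x ^ 2 := by nlinarith [hx.1, hy.1]
      have hw : Real.sqrt (1 - y ^ 2) ≤ Real.sqrt (1 - x ^ 2) := Real.sqrt_le_sqrt h2
      have hw0 : 0 ≤ Real.sqrt (1 - y ^ 2) := Real.sqrt_nonneg _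
      have hw2 : Real.sqrt (1 - y ^ 2) ^ 2 ≤ Real.sqrt (1 - x ^ 2) ^ 2 :=
        pow_le_pow_left₀ hw0 hw 2
      have := mul_le_mul_of_nonneg_left (add_le_add hw2 hw) hc1
      simp only
      linarith
    · intro s hs hq
      have hs2 : 0 < 1 - s ^ 2 := by nlinarith [hs.1, hs.2]
      have hw : 0 < Real.sqrt (1 - s ^ 2) := Real.sqrt_pos.2 hs2
      have hsq : Real.sqrt (1 - s ^ 2) ^ 2 = 1 - s ^ 2 := Real.sq_sqrt hs2.le
      have hw1 : Real.sqrt (1 - s ^ 2) ≤ 1 := by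
        rw [Real.sqrt_le_left (by norm_num : (0:ℝ) ≤ 1)]
        nlinarith [sq_nonneg s]
      set w := Real.sqrt (1 - s ^ 2) with hwdef
      rw [← hsq]
      have e : 1 / w ^ 2 + c * (-(1 / (w ^ 2 * w))) + (1 - c) / 2 * (-2)
          = (1 - w) * ((1 - c) * (w ^ 2 + w) - c) / w ^ 3 := by
        field_simp
        ring
      rw [e]
      apply div_nonneg (mul_nonneg (by linarith) hq) (by positivity)
    · intro s hs hq
      have hs2 : 0 < 1 - s ^ 2 := by nlinarith [hs.1, hs.2]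
      have hw : 0 < Real.sqrt (1 - s ^ 2) := Real.sqrt_pos.2 hs2
      have hsq : Real.sqrt (1 - s ^ 2) ^ 2 = 1 - s ^ 2 := Real.sq_sqrt hs2.le
      have hw1 : Real.sqrt (1 - s ^ 2) ≤ 1 := by
        rw [Real.sqrt_le_left (by norm_num : (0:ℝ) ≤ 1)]
        nlinarith [sq_nonneg s]
      set w := Real.sqrt (1 - s ^ 2) with hwdef
      rw [← hsq]
      have e : 1 / w ^ 2 + c * (-(1 / (w ^ 2 * w))) + (1 - c) / 2 * (-2)
          = (1 - w) * ((1 - c) * (w ^ 2 + w) - c) / w ^ 3 := by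
        field_simp
        ring
      rw [e]
      apply div_nonpos_of_nonpos_of_nonneg
        (mul_nonpos_of_nonneg_of_nonpos (by linarith) hq) (by positivity)
    · simp
      ring
    · simp
    · rw [Lam_one, hlog2]
      simp
  have key2 := nonneg_Icc_of_Ico hcont key t ⟨h0, h1⟩
  rw [hlog, hlog2]
  linarith

/-- `log 2 - Lam t ≤ (2 log 2 - 1) sqrt (1 - t^2) + (1 - log 2) (1 - t^2)` on `[-1,1]`.

Proof sketch (`t ∈ [0,1]`, then evenness `Lam_neg`).  Put `c = 2 log 2 - 1 ∈ (0.386, 0.387)` and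
`D t = Lam t - log 2 + c sqrt (1-t^2) + (1 - log 2)(1 - t^2)`.  Then `D 0 = 0 = D 1`,
`D' t = Lam1 t - c t / sqrt (1-t^2) - 2 (1 - log 2) t`, `D' 0 = 0`, and with `s = 1 / sqrt (1-t^2) ≥ 1`
`D'' t = s^2 - c s^3 - (1 - c) = (s - 1) ((1 - c)(s + 1) - c s^2)`.
The last factor is decreasing in `s ≥ 1`, positive at `s = 1`, so `D'' ≥ 0` on `[0,t0]` and
`D'' ≤ 0` on `[t0,1)`, where `t0` is given by the positive root `s0` of `c s^2 = (1-c)(s+1)`.
On `[0,t0]`: `D ≥ 0` by `nonneg_of_deriv2'`.  On `[t0,1]`: `D` is concave and continuous, with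
`D t0 ≥ 0` and `D 1 = 0`, so `D ≥ 0`. -/
theorem E1 {t : ℝ} (h0 : -1 ≤ t) (h1 : t ≤ 1) :
    Real.log 2 - (2 * Real.log 2 - 1) * Real.sqrt (1 - t ^ 2) - (1 - Real.log 2) * (1 - t ^ 2)
      ≤ Lam t := by
  rcases le_total 0 t with h | h
  · exact E1_pos h h1
  · have := E1_pos (t := -t) (by linarith) (by linarith)
    rw [Lam_neg, neg_sq] at this
    exact this

end Vale.Agent.Lib.P322.Pot
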