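import Vale.Agent.Lib.P322.Pot.Induct
import Vale.Agent.Lib.P322.SDPI

/-!
P322, potential method.  General frame: for a fixed correlation `ρ`, a real inequality in the four variables
`(u, v, μ, J)` (`PWhyp ρ`) implies the dimension-free inequality
`I(U;Y) ≤ Lam ρ (1 - Jb (log 2 - I(U;X))^2)` and hence the Courtade-Kumar inequality at `ρ`.
-/

namespace Vale.Agent.Lib.P322.Pot

open Real Finset Vale.Agent.Lib.P322

/-- The pointwise hypothesis at correlation `ρ`. -/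
def PWhyp (ρ : ℝ) : Prop :=
  ∀ μ J : ℝ, |μ| < 1 → 0 ≤ J → J ≤ 1 →
    (1 - ρ ^ 2) * Lam ρ * (1 + J) < ρ ^ 2 * (Real.log 2 - Lam ρ) →
    Lam μ ≤ ub (Lam ρ) J →
    ∃ κ : ℝ, (∀ u : ℝ, |u| ≤ 1 → 0 ≤ 1 + κ * (u - μ)) ∧
      ∀ u v : ℝ, |u| + |v| ≤ 1 →
        v ^ 2 ≤ (1 - μ ^ 2) * (Gf ρ u v / (Real.log 2 - Lam ρ)) *
          (Gf ρ u v / (Real.log 2 - Lam ρ)
            + 2 * (Lam ρ * J ^ 2 + cf u v + Lam μ * (1 + κ * (u - μ)))
                / (Real.log 2 - Lam ρ + 2 * Lam ρ * J))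

/-- `Lam ρ ≤ ρ^2 log 2 < log 2` (`Lam_mul_le` with `t = 1`). -/
lemma Lam_lt_log_two' {ρ : ℝ} (h0 : 0 ≤ ρ) (h1 : ρ < 1) : Lam ρ < Real.log 2 := by
  have h := Lam_mul_le (l := ρ) (t := 1) h0 h1.le zero_le_one le_rfl
  rw [mul_one, Lam_one] at h
  have hl : 0 < Real.log 2 := Real.log_pos (by norm_num)
  have h2 : ρ ^ 2 < 1 := by nlinarith
  nlinarith

/-- `Lam (ρ t) ≤ Lam t` for `0 ≤ ρ ≤ 1`, `|t| ≤ 1`. -/
lemma frame_Lam_mul_le_self {ρ t : ℝ} (hρ0 : 0 ≤ ρ) (hρ1 : ρ ≤ 1) (ht0 : -1 ≤ t) (ht1 : t ≤ 1) :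
    Lam (ρ * t) ≤ Lam t := by
  have h1 := Lam_mul_le' hρ0 hρ1 ht0 ht1
  have h2 := Lam_nonneg' ht0 ht1
  have h3 : ρ ^ 2 ≤ 1 := by nlinarith
  nlinarith

/-- If `|u| < 1` use `Lam_pair_eq` twice (`z = v`, `z = ρ v`) and `Lam (ρ t) ≤ ρ^2 Lam t ≤ Lam t`
(`Lam_mul_le'`); if `|u| = 1` then `v = 0` (`v_zero_of`, `Gf_zero`). -/
lemma Gf_nonneg' {ρ u v : ℝ} (hρ0 : 0 ≤ ρ) (hρ1 : ρ ≤ 1) (huv : |u| + |v| ≤ 1) : 0 ≤ Gf ρ u v := by
  by_cases hu : |u| < 1
  · obtain ⟨h1, h2⟩ := abs_lt.mp hu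
    have hp : 0 < 1 + u := by linarith
    have hq : 0 < 1 - u := by linarith
    have e1 := Lam_pair_eq (u := u) (z := v) hu
    have e2 := Lam_pair_eq (u := u) (z := ρ * v) hu
    have hv := abs_le.mp (le_refl |v|)
    have hu' := abs_le.mp (le_refl |u|)
    have b1 : -1 ≤ v / (1 + u) := by
      rw [le_div_iff₀ hp]
      linarith [hv.1, hu'.1]
    have b2 : v / (1 + u) ≤ 1 := by
      rw [div_le_iff₀ hp]
      linarith [hv.2, hu'.1]
    have b3 : -1 ≤ v / (1 - u) := by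
      rw [le_div_iff₀ hq]
      linarith [hv.1, hu'.2]
    have b4 : v / (1 - u) ≤ 1 := by
      rw [div_le_iff₀ hq]
      linarith [hv.2, hu'.2]
    have c1 := frame_Lam_mul_le_self hρ0 hρ1 b1 b2
    have c2 := frame_Lam_mul_le_self hρ0 hρ1 b3 b4
    rw [mul_div_assoc, mul_div_assoc] at e2
    have d1 : (1 + u) * Lam (ρ * (v / (1 + u))) ≤ (1 + u) * Lam (v / (1 + u)) :=
      mul_le_mul_of_nonneg_left c1 hp.le
    have d2 : (1 - u) * Lam (ρ * (v / (1 - u))) ≤ (1 - u) * Lam (v / (1 - u)) :=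
      mul_le_mul_of_nonneg_left c2 hq.le
    unfold Gf
    linarith
  · rw [v_zero_of huv (not_lt.1 hu), Gf_zero]

/-- Strong data processing for `Lam`: apply `sdpi` to `1 + G` and to `1 - G`
(`Lam t = (phi (1+t) + phi (1-t))/2`, `noiseOp` is linear and fixes constants). -/
lemma sdpi_Lam {ε : ℝ} (h0 : 0 ≤ ε) (h1 : ε ≤ 1 / 2) {n : ℕ} (G : Cube n → ℝ)
    (hG : ∀ x, |G x| ≤ 1) :
    avg (fun y => Lam (noiseOp ε G y)) - Lam (avg G)
      ≤ (1 - 2 * ε) ^ 2 * (avg (fun x => Lam (G x)) - Lam (avg G)) := by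
  have hp := sdpi h0 h1 n (fun x => 1 + G x) (fun x => by linarith [(abs_le.mp (hG x)).1])
  have hm := sdpi h0 h1 n (fun x => 1 + (-1) * G x)
    (fun x => by linarith [(abs_le.mp (hG x)).2])
  have n1 : ∀ y, noiseOp ε (fun x => 1 + G x) y = 1 + noiseOp ε G y := by
    intro y
    rw [noiseOp_add ε (fun _ => 1) G y, noiseOp_const]
  have n2 : ∀ y, noiseOp ε (fun x => 1 + (-1) * G x) y = 1 - noiseOp ε G y := by
    intro y
    rw [noiseOp_add ε (fun _ => 1) (fun x => (-1) * G x) y, noiseOp_const, noiseOp_const_mul]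
    ring
  have a1 : avg (fun x => 1 + G x) = 1 + avg G := by
    rw [avg_add (fun _ => 1) G, avg_const]
  have a2 : avg (fun x => 1 + (-1) * G x) = 1 - avg G := by
    rw [avg_add (fun _ => 1) (fun x => (-1) * G x), avg_const, avg_const_mul]
    ring
  simp_rw [n1] at hp
  simp_rw [n2] at hm
  rw [a1] at hp
  rw [a2] at hm
  have l1 : avg (fun y => Lam (noiseOp ε G y)) =
      (avg (fun y => phi (1 + noiseOp ε G y)) + avg (fun y => phi (1 - noiseOp ε G y))) / 2 := by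
    rw [← avg_add, ← avg_div_const]
    rfl
  have l2 : avg (fun x => Lam (G x)) =
      (avg (fun x => phi (1 + G x)) + avg (fun x => phi (1 + (-1) * G x))) / 2 := by
    rw [← avg_add, ← avg_div_const]
    congr 1
    funext x
    unfold Lam
    rw [show 1 + (-1) * G x = 1 - G x by ring]
  have l3 : Lam (avg G) = (phi (1 + avg G) + phi (1 - avg G)) / 2 := rfl
  rw [l1, l2, l3]
  linarith

/-- `t = h (1 - J) + lam (1 - J^2)`, so `ρ^2 t ≤ (1-ρ^2) lam (1+J)(1-J) + ρ^2 lam (1-J^2) = lam (1 - J^2)`. -/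
lemma cut_real {ρ lam J t : ℝ} (hJ1 : J ≤ 1)
    (ht : t = Real.log 2 - ub lam J)
    (hcut : ρ ^ 2 * (Real.log 2 - lam) ≤ (1 - ρ ^ 2) * lam * (1 + J)) :
    ρ ^ 2 * t ≤ lam * (1 - J ^ 2) := by
  have h1 : t = (Real.log 2 - lam) * (1 - J) + lam * (1 - J ^ 2) := by
    rw [ht]
    unfold ub
    ring
  have h2 : ρ ^ 2 * (Real.log 2 - lam) * (1 - J) ≤ (1 - ρ ^ 2) * lam * (1 + J) * (1 - J) :=
    mul_le_mul_of_nonneg_right hcut (by linarith)
  rw [h1]
  nlinarith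

/-- The one-coordinate inequality from `PWhyp`.  Same proof as `star` (file `Step.lean`), but simpler:
with `μ = avg u`, `J = Jb (Lam μ + avg c)`, `R = h + 2 lam J`, `κ` from `hPW μ J`,
`Z_i = (1-μ^2) (x_i + 2 (lam J^2 + c_i + Lam μ (1 + κ (u_i - μ)))/R) ≥ 0`, one has `v_i^2 ≤ x_i Z_i`, so
`ν^2 ≤ b avg Z` (`avg_sq_le`) and
`avg Z = (1-μ^2)(b + 2 (lam J^2 + avg c + Lam μ)/R) = (1-μ^2)(b + 2 J)`
because `avg c + Lam μ = ub J = h J + lam J^2` (`ub_Jb`) and `lam J^2 + h J + lam J^2 = J R`. -/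
theorem star_gen {ρ : ℝ} (hρ0 : 0 ≤ ρ) (hρ1 : ρ < 1) (hPW : PWhyp ρ) {m : ℕ} (u v : Cube m → ℝ)
    (huv : ∀ x, |u x| + |v x| ≤ 1)
    (hle : Lam (avg u) + avg (fun x => cf (u x) (v x)) ≤ Real.log 2)
    (hcut : (1 - ρ ^ 2) * Lam ρ * (1 + Jb (Lam ρ) (Lam (avg u) + avg (fun x => cf (u x) (v x))))
      < ρ ^ 2 * (Real.log 2 - Lam ρ)) :
    (Lam (avg u + ρ * avg v) + Lam (avg u - ρ * avg v)) / 2 - Lam (avg u) ≤
      Lam ρ * (avg (fun x => Gf ρ (u x) (v x)) / (Real.log 2 - Lam ρ)) *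
        (avg (fun x => Gf ρ (u x) (v x)) / (Real.log 2 - Lam ρ)
          + 2 * Jb (Lam ρ) (Lam (avg u) + avg (fun x => cf (u x) (v x)))) := by
  have hl0 : 0 ≤ Lam ρ := Lam_nonneg hρ0 hρ1.le
  have hl1 : Lam ρ < Real.log 2 := Lam_lt_log_two' hρ0 hρ1
  have hh : 0 < Real.log 2 - Lam ρ := by linarith
  have hμν := abs_avg_add_le u v huv
  set μ := avg u with hμ
  set ν := avg v with hν
  set lam := Lam ρ with hlam
  have hμ1 : |μ| ≤ 1 := by linarith [abs_nonneg ν]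
  have hμ1' := abs_le.mp hμ1
  have hLμ : 0 ≤ Lam μ := Lam_nonneg' hμ1'.1 hμ1'.2
  have hc0 : ∀ x, 0 ≤ cf (u x) (v x) := fun x => cf_nonneg (huv x)
  have hG0 : ∀ x, 0 ≤ Gf ρ (u x) (v x) := fun x => Gf_nonneg' hρ0 hρ1.le (huv x)
  have hac : 0 ≤ avg (fun x => cf (u x) (v x)) := avg_nonneg hc0
  have haG : 0 ≤ avg (fun x => Gf ρ (u x) (v x)) := avg_nonneg hG0
  set C := avg (fun x => cf (u x) (v x)) with hC
  set b := avg (fun x => Gf ρ (u x) (v x)) / (Real.log 2 - lam) with hb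
  have hb0 : 0 ≤ b := div_nonneg haG hh.le
  have hr : 0 ≤ Lam μ + C := by linarith
  set J := Jb lam (Lam μ + C) with hJ
  have hJ0 : 0 ≤ J := Jb_nonneg hl0 hl1 hr
  have hJ1 : J ≤ 1 := Jb_le_one hl0 hl1 hr hle
  have hubJ : ub lam J = Lam μ + C := ub_Jb hl0 hl1 hr
  have hrhs : 0 ≤ lam * b * (b + 2 * J) := by positivity
  rcases eq_or_lt_of_le hμ1 with hμe | hμlt
  · have hν0 : ν = 0 := by
      have : |ν| ≤ 0 := by linarith
      exact abs_eq_zero.mp (le_antisymm this (abs_nonneg _))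
    rw [hν0]
    simp only [mul_zero, add_zero, sub_zero]
    linarith
  · have hsq : μ ^ 2 < 1 := (sq_lt_one_iff_abs_lt_one μ).mpr hμlt
    have hw : 0 < 1 - μ ^ 2 := by linarith
    have hup := eS_upper (ρ := ρ) (u := μ) (v := ν) hρ0 hρ1.le hμν hμlt
    obtain ⟨κ, hκ, hpw⟩ := hPW μ J hμlt hJ0 hJ1 hcut (by rw [hubJ]; linarith)
    have hR : 0 < Real.log 2 - lam + 2 * lam * J := by
      have : 0 ≤ 2 * lam * J := by positivity
      linarith
    set R := Real.log 2 - lam + 2 * lam * J with hRdef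
    have hu1 : ∀ x, |u x| ≤ 1 := fun x => by linarith [huv x, abs_nonneg (v x)]
    have hnum : ∀ x, 0 ≤ lam * J ^ 2 + cf (u x) (v x) + Lam μ * (1 + κ * (u x - μ)) := by
      intro x
      have h1 : 0 ≤ lam * J ^ 2 := by positivity
      have h2 := hc0 x
      have h3 : 0 ≤ Lam μ * (1 + κ * (u x - μ)) := mul_nonneg hLμ (hκ (u x) (hu1 x))
      linarith
    have hcs := avg_sq_le v (fun x => Gf ρ (u x) (v x) / (Real.log 2 - lam))
      (fun x => (1 - μ ^ 2) * (Gf ρ (u x) (v x) / (Real.log 2 - lam)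
        + 2 * (lam * J ^ 2 + cf (u x) (v x) + Lam μ * (1 + κ * (u x - μ))) / R))
      (fun x => div_nonneg (hG0 x) hh.le)
      (fun x => by
        have h1 : 0 ≤ Gf ρ (u x) (v x) / (Real.log 2 - lam) := div_nonneg (hG0 x) hh.le
        have h2 : 0 ≤ 2 * (lam * J ^ 2 + cf (u x) (v x) + Lam μ * (1 + κ * (u x - μ))) / R :=
          div_nonneg (by linarith [hnum x]) hR.le
        exact mul_nonneg hw.le (by linarith))
      (fun x => by
        have := hpw (u x) (v x) (huv x)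
        calc v x ^ 2 ≤ (1 - μ ^ 2) * (Gf ρ (u x) (v x) / (Real.log 2 - lam)) *
              (Gf ρ (u x) (v x) / (Real.log 2 - lam)
                + 2 * (lam * J ^ 2 + cf (u x) (v x) + Lam μ * (1 + κ * (u x - μ))) / R) := this
          _ = _ := by ring)
    rw [avg_div_const] at hcs
    have hZ : avg (fun x => (1 - μ ^ 2) * (Gf ρ (u x) (v x) / (Real.log 2 - lam)
        + 2 * (lam * J ^ 2 + cf (u x) (v x) + Lam μ * (1 + κ * (u x - μ))) / R))
        = (1 - μ ^ 2) * (b + 2 * J) := by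
      have e1 : avg (fun x => (1 - μ ^ 2) * (Gf ρ (u x) (v x) / (Real.log 2 - lam)
          + 2 * (lam * J ^ 2 + cf (u x) (v x) + Lam μ * (1 + κ * (u x - μ))) / R))
          = (1 - μ ^ 2) * (b + 2 * (lam * J ^ 2 + C + Lam μ * (1 + κ * (μ - μ))) / R) := by
        rw [avg_const_mul, avg_add, avg_div_const, avg_div_const, avg_const_mul, avg_add, avg_add,
          avg_const, avg_const_mul, avg_add, avg_const, avg_const_mul, avg_sub, avg_const]
      rw [e1]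
      have e2 : lam * J ^ 2 + C + Lam μ * (1 + κ * (μ - μ)) = J * R := by
        have : Lam μ + C = (Real.log 2 - lam) * J + lam * J ^ 2 := by
          rw [← hubJ]; rfl
        rw [hRdef]
        linear_combination this
      rw [e2]
      congr 2
      field_simp
    rw [hZ] at hcs
    have hdiv : ν ^ 2 / (1 - μ ^ 2) ≤ b * (b + 2 * J) := by
      rw [div_le_iff₀ hw]
      linarith
    calc (Lam (μ + ρ * ν) + Lam (μ - ρ * ν)) / 2 - Lam μ ≤ lam * (ν ^ 2 / (1 - μ ^ 2)) := hup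
      _ ≤ lam * (b * (b + 2 * J)) := mul_le_mul_of_nonneg_left hdiv hl0
      _ = lam * b * (b + 2 * J) := by ring

/-- The induction step of `soft_gen`. -/
lemma soft_gen_step {ε : ℝ} (h0 : 0 < ε) (h1 : ε ≤ 1 / 2) (hPW : PWhyp (1 - 2 * ε)) (m : ℕ)
    (ih : ∀ (G : Cube m → ℝ), (∀ x, |G x| ≤ 1) →
      avg (fun y => Lam (noiseOp ε G y)) - Lam (avg G) ≤
        Lam (1 - 2 * ε) * (1 - Jb (Lam (1 - 2 * ε))
          (Real.log 2 - (avg (fun x => Lam (G x)) - Lam (avg G))) ^ 2))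
    (G : Cube (m + 1) → ℝ) (hG : ∀ x, |G x| ≤ 1) :
      avg (fun y => Lam (noiseOp ε G y)) - Lam (avg G) ≤
        Lam (1 - 2 * ε) * (1 - Jb (Lam (1 - 2 * ε))
          (Real.log 2 - (avg (fun x => Lam (G x)) - Lam (avg G))) ^ 2) := by
  obtain ⟨ρ, hρ⟩ : ∃ ρ : ℝ, ρ = 1 - 2 * ε := ⟨_, rfl⟩
  have hρ0 : 0 ≤ ρ := by rw [hρ]; linarith
  have hρ1 : ρ < 1 := by rw [hρ]; linarith
  have hl0 : 0 ≤ Lam ρ := Lam_nonneg hρ0 hρ1.le
  have hl1 : Lam ρ < Real.log 2 := Lam_lt_log_two' hρ0 hρ1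
  have hJen := Lam_avg_le G hG
  have hres := resid_nonneg G hG
  rcases le_or_gt (ρ ^ 2 * (Real.log 2 - Lam ρ)) ((1 - ρ ^ 2) * Lam ρ *
      (1 + Jb (Lam ρ) (Real.log 2 - (avg (fun x => Lam (G x)) - Lam (avg G))))) with hcut | hcut
  · -- strong data processing
    have hs := sdpi_Lam h0.le h1 G hG
    have hJ1 : Jb (Lam ρ) (Real.log 2 - (avg (fun x => Lam (G x)) - Lam (avg G))) ≤ 1 :=
      Jb_le_one hl0 hl1 hres (by linarith)
    have hc := cut_real (ρ := ρ) (lam := Lam ρ)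
      (J := Jb (Lam ρ) (Real.log 2 - (avg (fun x => Lam (G x)) - Lam (avg G))))
      (t := avg (fun x => Lam (G x)) - Lam (avg G)) hJ1
      (by rw [ub_Jb hl0 hl1 hres]; ring) hcut
    rw [← hρ] at hs ⊢
    linarith
  obtain ⟨u, hu⟩ : ∃ u : Cube m → ℝ, u = fun x => (slice G 0 1 x + slice G 0 (-1) x) / 2 :=
    ⟨_, rfl⟩
  obtain ⟨v, hv⟩ : ∃ v : Cube m → ℝ, v = fun x => (slice G 0 1 x - slice G 0 (-1) x) / 2 :=
    ⟨_, rfl⟩
  have huv : ∀ x, |u x| + |v x| ≤ 1 := by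
    intro x
    rw [hu, hv]
    exact abs_half_add (hG _) (hG _)
  have hGp : mixSlice ε G 0 1 = fun x => u x + ρ * v x := by
    funext x; rw [mixSlice_one, hu, hv, hρ]
  have hGm : mixSlice ε G 0 (-1) = fun x => u x - ρ * v x := by
    funext x; rw [mixSlice_neg_one, hu, hv, hρ]
  have hbp : ∀ x, |u x + ρ * v x| ≤ 1 := fun x => (abs_add_mul_le hρ0 hρ1.le (huv x)).1
  have hbm : ∀ x, |u x - ρ * v x| ≤ 1 := fun x => (abs_add_mul_le hρ0 hρ1.le (huv x)).2
  have A1 : avg (fun y => Lam (noiseOp ε G y))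
      = (avg (fun y => Lam (noiseOp ε (fun x => u x + ρ * v x) y))
        + avg (fun y => Lam (noiseOp ε (fun x => u x - ρ * v x) y))) / 2 := by
    rw [avg_succ 0]
    have e : ∀ w : ℤˣ, slice (fun y => Lam (noiseOp ε G y)) 0 w
        = fun y' => Lam (noiseOp ε (mixSlice ε G 0 w) y') := by
      intro w; funext y'; unfold slice; beta_reduce; rw [noiseOp_insertNth']
    rw [e, e, hGp, hGm]
  have A2 : avg G = avg u := by
    rw [avg_succ 0 G, hu, avg_div_const, avg_add]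
  have A3 : avg (fun x => Lam (G x))
      = avg (fun x => (Lam (u x + v x) + Lam (u x - v x)) / 2) := by
    rw [avg_succ 0, avg_div_const, avg_add]
    have e1 : (fun x => Lam (u x + v x)) = slice (fun x => Lam (G x)) 0 1 := by
      funext x; rw [hu, hv]; unfold slice; beta_reduce; congr 1; ring
    have e2 : (fun x => Lam (u x - v x)) = slice (fun x => Lam (G x)) 0 (-1) := by
      funext x; rw [hu, hv]; unfold slice; beta_reduce; congr 1; ring
    rw [e1, e2]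
  have A4 : avg (fun x => u x + ρ * v x) = avg u + ρ * avg v := by
    rw [avg_add, avg_const_mul]
  have A5 : avg (fun x => u x - ρ * v x) = avg u - ρ * avg v := by
    rw [avg_sub, avg_const_mul]
  have A6 : avg (fun x => cf (u x) (v x))
      = Real.log 2 - avg (fun x => (Lam (u x + v x) + Lam (u x - v x)) / 2) := by
    unfold cf; rw [avg_sub, avg_const]
  have A7 : avg (fun x => Gf ρ (u x) (v x))
      = avg (fun x => (Lam (u x + v x) + Lam (u x - v x)) / 2)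
        - (avg (fun x => Lam (u x + ρ * v x)) + avg (fun x => Lam (u x - ρ * v x))) / 2 := by
    unfold Gf
    rw [avg_sub]
    congr 1
    rw [avg_div_const, avg_add]
  have ihp := ih _ hbp
  have ihm := ih _ hbm
  have hr : Lam (avg u) + avg (fun x => cf (u x) (v x))
      = Real.log 2 - (avg (fun x => Lam (G x)) - Lam (avg G)) := by
    rw [A6, A3, A2]; ring
  rw [← hρ] at hPW
  have hst := star_gen hρ0 hρ1 hPW u v huv (by rw [hr]; linarith) (by rw [hr]; exact hcut)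
  rw [hr] at hst
  rw [← hρ] at ihp ihm ⊢
  have key := step_real (lam := Lam ρ)
    (r := Real.log 2 - (avg (fun x => Lam (G x)) - Lam (avg G)))
    (rp := Real.log 2 - (avg (fun x => Lam (u x + ρ * v x)) - Lam (avg (fun x => u x + ρ * v x))))
    (rm := Real.log 2 - (avg (fun x => Lam (u x - ρ * v x)) - Lam (avg (fun x => u x - ρ * v x))))
    (α := (Lam (avg u + ρ * avg v) + Lam (avg u - ρ * avg v)) / 2 - Lam (avg u))
    (γ := avg (fun x => Gf ρ (u x) (v x)))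
    (sp := avg (fun y => Lam (noiseOp ε (fun x => u x + ρ * v x) y))
      - Lam (avg (fun x => u x + ρ * v x)))
    (sm := avg (fun y => Lam (noiseOp ε (fun x => u x - ρ * v x) y))
      - Lam (avg (fun x => u x - ρ * v x)))
    hl0 hl1 hres (resid_nonneg _ hbp) (resid_nonneg _ hbm)
    (avg_nonneg fun x => Gf_nonneg' hρ0 hρ1.le (huv x))
    (by rw [A7, A4, A5, A3, A2]; ring) ihp ihm hst
  rw [A4, A5] at key
  rw [A1, A2]
  rw [A2] at key
  linarith

/-- Induction on `n` as in `soft` / `soft_step` (file `Induct.lean`).  In the step put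
`J = Jb (log 2 - tI G)`.  If `ρ^2 h ≤ (1-ρ^2) lam (1+J)`: conclude by `sdpi_Lam` and `cut_real`
(no induction hypothesis needed).  Otherwise use `star_gen` and `step_real` exactly as in `soft_step`. -/
theorem soft_gen {ε : ℝ} (h0 : 0 < ε) (h1 : ε ≤ 1 / 2) (hPW : PWhyp (1 - 2 * ε)) :
    ∀ (n : ℕ) (G : Cube n → ℝ), (∀ x, |G x| ≤ 1) →
      avg (fun y => Lam (noiseOp ε G y)) - Lam (avg G) ≤
        Lam (1 - 2 * ε) * (1 - Jb (Lam (1 - 2 * ε))
          (Real.log 2 - (avg (fun x => Lam (G x)) - Lam (avg G))) ^ 2) := by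
  intro n
  induction n with
  | zero =>
    intro G _
    have hl0 : 0 ≤ Lam (1 - 2 * ε) := Lam_nonneg (by linarith) (by linarith)
    have hl1 : Lam (1 - 2 * ε) < Real.log 2 := Lam_lt_log_two' (by linarith) (by linarith)
    rw [avg_zero, avg_zero, avg_zero, noiseOp_zero, sub_self, sub_zero, Jb_log_two hl0 hl1]
    simp
  | succ m ih => exact soft_gen_step h0 h1 hPW m ih

/-- Same proof as `ck_quarter`, with `soft_gen`. -/
theorem ck_gen {ε : ℝ} (h0 : 0 < ε) (h1 : ε ≤ 1 / 2) (hPW : PWhyp (1 - 2 * ε)) {n : ℕ}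
    (f : Cube n → ℤˣ) : infoFY ε f ≤ 1 - h2 ε := by
  have hlog : 0 < Real.log 2 := Real.log_pos (by norm_num)
  have hl0 : 0 ≤ Lam (1 - 2 * ε) := Lam_nonneg (by linarith) (by linarith)
  have hF := infoFY_formula (ε := ε) (by linarith) (by linarith) f
  have hG : ∀ x, |2 * ind f 1 x - 1| ≤ 1 := by
    intro x
    rcases ind_zero_or_one f 1 x with h | h <;> rw [h] <;> norm_num
  have hS := soft_gen h0 h1 hPW n (fun x => 2 * ind f 1 x - 1) hG
  have e1 : ∀ y, noiseOp ε (fun x => 2 * ind f 1 x - 1) y = 2 * noiseOp ε (ind f 1) y - 1 := by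
    intro y
    have h1 : (fun x => 2 * ind f 1 x - 1)
        = fun x => (fun x => 2 * ind f 1 x) x + (fun _ => (-1 : ℝ)) x := by
      funext x; ring
    rw [h1, noiseOp_add, noiseOp_const, noiseOp_const_mul]; ring
  have e2 : avg (fun x => 2 * ind f 1 x - 1) = 2 * avg (ind f 1) - 1 := by
    rw [avg_sub, avg_const, avg_const_mul]
  have e3 : avg (fun y => bent (noiseOp ε (ind f 1) y))
      = avg (fun y => Lam (noiseOp ε (fun x => 2 * ind f 1 x - 1) y)) - Real.log 2 := by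
    simp only [bent_eq_Lam, e1]
    rw [avg_sub, avg_const]
  rw [e3, bent_eq_Lam, ← e2] at hF
  rw [one_sub_h2, le_div_iff₀ hlog, hF]
  have hsq := sq_nonneg (Jb (Lam (1 - 2 * ε)) (Real.log 2
    - (avg (fun x => Lam (2 * ind f 1 x - 1)) - Lam (avg fun x => 2 * ind f 1 x - 1))))
  nlinarith

end Vale.Agent.Lib.P322.Pot
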