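import Vale.Agent.Lib.P322.Pot.E1

/-!
P322, potential method.  The reverse-channel identity for `Lam` and its two consequences.
-/

namespace Vale.Agent.Lib.P322.Pot

open Real Vale.Agent.Lib.P322

/-- Unfold `Lam` and use `ent2_eq` with `m = 1 + u`, `t = z/(1+u)` and with `m = 1 - u`, `t = z/(1-u)`. -/
lemma Lam_pair_eq {u z : ℝ} (hu : |u| < 1) :
    (Lam (u + z) + Lam (u - z)) / 2 - Lam u
      = ((1 + u) * Lam (z / (1 + u)) + (1 - u) * Lam (z / (1 - u))) / 2 := by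
  obtain ⟨h1, h2⟩ := abs_lt.mp hu
  have hp : (1 + u) ≠ 0 := by linarith
  have hq : (1 - u) ≠ 0 := by linarith
  have e1 := ent2_eq (1 + u) (z / (1 + u))
  have e2 := ent2_eq (1 - u) (z / (1 - u))
  have a1 : (1 + u) * (1 + z / (1 + u)) = 1 + (u + z) := by field_simp; ring
  have a2 : (1 + u) * (1 - z / (1 + u)) = 1 + (u - z) := by field_simp; ring
  have a3 : (1 - u) * (1 + z / (1 - u)) = 1 - (u - z) := by field_simp; ring
  have a4 : (1 - u) * (1 - z / (1 - u)) = 1 - (u + z) := by field_simp; ring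
  rw [a1, a2] at e1
  rw [a3, a4] at e2
  have l1 : Lam (u + z) = (phi (1 + (u + z)) + phi (1 - (u + z))) / 2 := rfl
  have l2 : Lam (u - z) = (phi (1 + (u - z)) + phi (1 - (u - z))) / 2 := rfl
  have l3 : Lam u = (phi (1 + u) + phi (1 - u)) / 2 := rfl
  rw [l1, l2, l3]
  linarith

lemma mul_sqrt_aux {m v : ℝ} (hm : 0 < m) :
    m * Real.sqrt (1 - (v / m) ^ 2) = Real.sqrt (m ^ 2 - v ^ 2) := by
  have : m ^ 2 - v ^ 2 = m ^ 2 * (1 - (v / m) ^ 2) := by field_simp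
  rw [this, Real.sqrt_mul (by positivity), Real.sqrt_sq hm.le]

/-- `Lam_pair_eq` with `z = v`, then `E1` at `t = v/(1+u)` and `t = v/(1-u)` (both in `[-1,1]`), with
the identity  (1 ± u) sqrt (1 - v^2/(1 ± u)^2) = sqrt ((1 ± u)^2 - v^2)  and
the identity  ((1+u)(1 - v^2/(1+u)^2) + (1-u)(1 - v^2/(1-u)^2))/2 = 1 - v^2/(1-u^2). -/
lemma e1_lower {u v : ℝ} (huv : |u| + |v| ≤ 1) (hu : |u| < 1) :
    Real.log 2
        - (2 * Real.log 2 - 1) * ((Real.sqrt ((1 + u) ^ 2 - v ^ 2) + Real.sqrt ((1 - u) ^ 2 - v ^ 2)) / 2)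
        - (1 - Real.log 2) * (1 - v ^ 2 / (1 - u ^ 2))
      ≤ (Lam (u + v) + Lam (u - v)) / 2 - Lam u := by
  obtain ⟨h1, h2⟩ := abs_lt.mp hu
  have hp : 0 < 1 + u := by linarith
  have hq : 0 < 1 - u := by linarith
  have hv1 : |v| ≤ 1 + u := by have := neg_abs_le u; linarith
  have hv2 : |v| ≤ 1 - u := by have := le_abs_self u; linarith
  obtain ⟨b1, b2⟩ := abs_le.mp hv1
  obtain ⟨b3, b4⟩ := abs_le.mp hv2
  have E1p := E1 (t := v / (1 + u)) (by rw [le_div_iff₀ hp]; linarith) (by rw [div_le_one hp]; exact b2)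
  have E1q := E1 (t := v / (1 - u)) (by rw [le_div_iff₀ hq]; linarith) (by rw [div_le_one hq]; exact b4)
  rw [Lam_pair_eq hu]
  have s1 := mul_sqrt_aux (v := v) hp
  have s2 := mul_sqrt_aux (v := v) hq
  rw [← s1, ← s2]
  have m1 := mul_le_mul_of_nonneg_left E1p hp.le
  have m2 := mul_le_mul_of_nonneg_left E1q hq.le
  have key : ((1 + u) * (1 - (v / (1 + u)) ^ 2) + (1 - u) * (1 - (v / (1 - u)) ^ 2)) / 2
      = 1 - v ^ 2 / (1 - u ^ 2) := by
    have : (1 - u ^ 2) = (1 + u) * (1 - u) := by ring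
    rw [this]
    field_simp
    ring
  rw [← key]
  nlinarith [m1, m2]

/-- `Lam_pair_eq` with `z = ρ v`, then `Lam (ρ t) ≤ t^2 Lam ρ` for `|t| ≤ 1` (`Lam_mul_le'`, evenness). -/
lemma eS_upper {ρ u v : ℝ} (hρ0 : 0 ≤ ρ) (hρ1 : ρ ≤ 1) (huv : |u| + |v| ≤ 1) (hu : |u| < 1) :
    (Lam (u + ρ * v) + Lam (u - ρ * v)) / 2 - Lam u ≤ Lam ρ * (v ^ 2 / (1 - u ^ 2)) := by
  obtain ⟨h1, h2⟩ := abs_lt.mp hu
  have hp : 0 < 1 + u := by linarith
  have hq : 0 < 1 - u := by linarith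
  have hv1 : |v| ≤ 1 + u := by have := neg_abs_le u; linarith
  have hv2 : |v| ≤ 1 - u := by have := le_abs_self u; linarith
  rw [Lam_pair_eq hu]
  have c1 := chord hp hv1 hρ0 hρ1
  have c2 := chord hq hv2 hρ0 hρ1
  have key : (v ^ 2 / (1 + u) + v ^ 2 / (1 - u)) / 2 = v ^ 2 / (1 - u ^ 2) := by
    have : (1 - u ^ 2) = (1 + u) * (1 - u) := by ring
    rw [this]
    field_simp
    ring
  rw [← key]
  nlinarith [c1, c2]

end Vale.Agent.Lib.P322.Pot
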