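import Vale.Agent.Lib.P322.Pot.Step
import Vale.Agent.Lib.P322.InfluenceCor

/-!
P322, potential method.  The dimension-free inequality for `[-1,1]`-valued functions and the
Courtade-Kumar inequality for `ε ≥ 1/4`.
-/

namespace Vale.Agent.Lib.P322.Pot

open Real Finset Vale.Agent.Lib.P322

lemma convexOn_Lam : ConvexOn ℝ (Set.Icc (-1 : ℝ) 1) Lam := by
  refine ⟨convex_Icc _ _, ?_⟩
  intro x hx y hy a b ha hb hab
  have hc := Real.convexOn_mul_log
  have h1 := hc.2 (x := 1 + x) (y := 1 + y) (by simp only [Set.mem_Ici]; linarith [hx.1])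
    (by simp only [Set.mem_Ici]; linarith [hy.1]) ha hb hab
  have h2 := hc.2 (x := 1 - x) (y := 1 - y) (by simp only [Set.mem_Ici]; linarith [hx.2])
    (by simp only [Set.mem_Ici]; linarith [hy.2]) ha hb hab
  simp only [smul_eq_mul] at h1 h2 ⊢
  unfold Lam phi
  have e1 : 1 + (a * x + b * y) = a * (1 + x) + b * (1 + y) := by
    have : a * (1 + x) + b * (1 + y) = (a + b) + (a * x + b * y) := by ring
    rw [this, hab]
  have e2 : 1 - (a * x + b * y) = a * (1 - x) + b * (1 - y) := by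
    have : a * (1 - x) + b * (1 - y) = (a + b) - (a * x + b * y) := by ring
    rw [this, hab]
  rw [e1, e2]
  linarith

/-- Jensen for the convex function `Lam` on `[-1,1]`. -/
lemma Lam_avg_le {n : ℕ} (G : Cube n → ℝ) (hG : ∀ x, |G x| ≤ 1) :
    Lam (avg G) ≤ avg (fun x => Lam (G x)) := by
  have hw : ∑ _x : Cube n, (1 / 2 : ℝ) ^ n = 1 := by
    have := avg_const (n := n) 1
    unfold avg at this
    rw [Finset.mul_sum] at this
    simp only [mul_one] at this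
    exact this
  have := convexOn_Lam.map_sum_le (t := Finset.univ) (w := fun _ : Cube n => (1 / 2 : ℝ) ^ n)
    (p := G) (fun _ _ => by positivity) hw (fun x _ => abs_le.mp (hG x))
  simp only [smul_eq_mul] at this
  unfold avg
  rw [Finset.mul_sum, Finset.mul_sum]
  exact this

lemma Lam_le_log_two_abs {t : ℝ} (ht : |t| ≤ 1) : Lam t ≤ Real.log 2 := by
  have h1 : Lam (|t| * 1) ≤ |t| ^ 2 * Lam 1 :=
    Lam_mul_le' (abs_nonneg t) ht (by norm_num) le_rfl
  rw [mul_one, Lam_one] at h1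
  have h2 : Lam |t| = Lam t := by
    rcases abs_cases t with ⟨h, _⟩ | ⟨h, _⟩
    · rw [h]
    · rw [h, Lam_neg]
  have h3 : |t| ^ 2 ≤ 1 := by nlinarith [abs_nonneg t]
  have h4 : 0 < Real.log 2 := Real.log_pos (by norm_num)
  rw [h2] at h1
  nlinarith

lemma abs_avg_le_one {n : ℕ} (G : Cube n → ℝ) (hG : ∀ x, |G x| ≤ 1) : |avg G| ≤ 1 := by
  rw [abs_le]
  constructor
  · have := avg_mono (g := fun _ : Cube n => (-1 : ℝ)) (h := G) (fun x => (abs_le.mp (hG x)).1)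
    rwa [avg_const] at this
  · have := avg_mono (g := G) (h := fun _ : Cube n => (1 : ℝ)) (fun x => (abs_le.mp (hG x)).2)
    rwa [avg_const] at this

/-- `0 ≤ H(U | X)`. -/
lemma resid_nonneg {n : ℕ} (G : Cube n → ℝ) (hG : ∀ x, |G x| ≤ 1) :
    0 ≤ Real.log 2 - (avg (fun x => Lam (G x)) - Lam (avg G)) := by
  have h1 : avg (fun x => Lam (G x)) ≤ Real.log 2 := by
    have := avg_mono (g := fun x => Lam (G x)) (h := fun _ : Cube n => Real.log 2)
      (fun x => Lam_le_log_two_abs (hG x))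
    rwa [avg_const] at this
  have h2 := abs_le.mp (abs_avg_le_one G hG)
  have h3 : 0 ≤ Lam (avg G) := Lam_nonneg' h2.1 h2.2
  linarith

lemma Lam_rho_bounds {ρ : ℝ} (h0 : 0 ≤ ρ) (h1 : ρ ≤ 1 / 2) :
    0 ≤ Lam ρ ∧ Lam ρ < Real.log 2 := by
  refine ⟨Lam_nonneg h0 (by linarith), ?_⟩
  have h2 : Lam (ρ * 1) ≤ ρ ^ 2 * Lam 1 := Lam_mul_le' h0 (by linarith) (by norm_num) le_rfl
  rw [mul_one, Lam_one] at h2
  have h4 : 0 < Real.log 2 := Real.log_pos (by norm_num)
  have h3 : ρ ^ 2 ≤ 1 / 4 := by nlinarith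
  nlinarith

lemma avg_zero (g : Cube 0 → ℝ) : avg g = g default := by
  unfold avg
  simp
  congr 1
  exact Subsingleton.elim _ _

lemma noiseOp_zero (ε : ℝ) (g : Cube 0 → ℝ) (y : Cube 0) : noiseOp ε g y = g default := by
  unfold noiseOp ker
  simp
  congr 1
  exact Subsingleton.elim _ _

lemma mixSlice_one (ε : ℝ) {m : ℕ} (G : Cube (m + 1) → ℝ) (x : Cube m) :
    mixSlice ε G 0 1 x = (slice G 0 1 x + slice G 0 (-1) x) / 2
      + (1 - 2 * ε) * ((slice G 0 1 x - slice G 0 (-1) x) / 2) := by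
  unfold mixSlice mix
  rw [wt_one_one, wt_neg_one]; ring

lemma mixSlice_neg_one (ε : ℝ) {m : ℕ} (G : Cube (m + 1) → ℝ) (x : Cube m) :
    mixSlice ε G 0 (-1) x = (slice G 0 1 x + slice G 0 (-1) x) / 2
      - (1 - 2 * ε) * ((slice G 0 1 x - slice G 0 (-1) x) / 2) := by
  unfold mixSlice mix
  rw [wt_one_neg, wt_neg_neg]; ring

lemma abs_half_add {p q : ℝ} (hp : |p| ≤ 1) (hq : |q| ≤ 1) :
    |(p + q) / 2| + |(p - q) / 2| ≤ 1 := by
  have hp' := abs_le.mp hp
  have hq' := abs_le.mp hq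
  rcases abs_cases ((p + q) / 2) with ⟨h, _⟩ | ⟨h, _⟩ <;>
  rcases abs_cases ((p - q) / 2) with ⟨h', _⟩ | ⟨h', _⟩ <;>
  rw [h, h'] <;> linarith [hp'.1, hp'.2, hq'.1, hq'.2]

lemma abs_add_mul_le {ρ u v : ℝ} (h0 : 0 ≤ ρ) (h1 : ρ ≤ 1) (huv : |u| + |v| ≤ 1) :
    |u + ρ * v| ≤ 1 ∧ |u - ρ * v| ≤ 1 := by
  have h2 : |ρ * v| ≤ |v| := by
    rw [abs_mul, abs_of_nonneg h0]
    nlinarith [abs_nonneg v]
  constructor
  · calc |u + ρ * v| ≤ |u| + |ρ * v| := abs_add_le _ _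
      _ ≤ 1 := by linarith
  · calc |u - ρ * v| ≤ |u| + |ρ * v| := abs_sub _ _
      _ ≤ 1 := by linarith

/-- The induction step of `soft`. -/
lemma soft_step {ε : ℝ} (h0 : 1 / 4 ≤ ε) (h1 : ε ≤ 1 / 2) (m : ℕ)
    (ih : ∀ (G : Cube m → ℝ), (∀ x, |G x| ≤ 1) →
      avg (fun y => Lam (noiseOp ε G y)) - Lam (avg G) ≤
        Lam (1 - 2 * ε) * (1 - Jb (Lam (1 - 2 * ε))
          (Real.log 2 - (avg (fun x => Lam (G x)) - Lam (avg G))) ^ 2))
    (G : Cube (m + 1) → ℝ) (hG : ∀ x, |G x| ≤ 1) :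
      avg (fun y => Lam (noiseOp ε G y)) - Lam (avg G) ≤
        Lam (1 - 2 * ε) * (1 - Jb (Lam (1 - 2 * ε))
          (Real.log 2 - (avg (fun x => Lam (G x)) - Lam (avg G))) ^ 2) := by
  obtain ⟨ρ, hρ⟩ : ∃ ρ : ℝ, ρ = 1 - 2 * ε := ⟨_, rfl⟩
  have hρ0 : 0 ≤ ρ := by rw [hρ]; linarith
  have hρ1 : ρ ≤ 1 / 2 := by rw [hρ]; linarith
  obtain ⟨u, hu⟩ : ∃ u : Cube m → ℝ, u = fun x => (slice G 0 1 x + slice G 0 (-1) x) / 2 :=
    ⟨_, rfl⟩
  obtain ⟨v, hv⟩ : ∃ v : Cube m → ℝ, v = fun x => (slice G 0 1 x - slice G 0 (-1) x) / 2 :=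
    ⟨_, rfl⟩
  have huv : ∀ x, |u x| + |v x| ≤ 1 := by
    intro x
    rw [hu, hv]
    exact abs_half_add (hG _) (hG _)
  have hGp : mixSlice ε G 0 1 = fun x => u x + ρ * v x := by
    funext x; rw [mixSlice_one, hu, hv, hρ]
  have hGm : mixSlice ε G 0 (-1) = fun x => u x - ρ * v x := by
    funext x; rw [mixSlice_neg_one, hu, hv, hρ]
  have hbp : ∀ x, |u x + ρ * v x| ≤ 1 := fun x => (abs_add_mul_le hρ0 (by linarith) (huv x)).1
  have hbm : ∀ x, |u x - ρ * v x| ≤ 1 := fun x => (abs_add_mul_le hρ0 (by linarith) (huv x)).2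
  have A1 : avg (fun y => Lam (noiseOp ε G y))
      = (avg (fun y => Lam (noiseOp ε (fun x => u x + ρ * v x) y))
        + avg (fun y => Lam (noiseOp ε (fun x => u x - ρ * v x) y))) / 2 := by
    rw [avg_succ 0]
    have e : ∀ w : ℤˣ, slice (fun y => Lam (noiseOp ε G y)) 0 w
        = fun y' => Lam (noiseOp ε (mixSlice ε G 0 w) y') := by
      intro w; funext y'; unfold slice; beta_reduce; rw [noiseOp_insertNth']
    rw [e, e, hGp, hGm]
  have A2 : avg G = avg u := by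
    rw [avg_succ 0 G, hu, avg_div_const, avg_add]
  have A3 : avg (fun x => Lam (G x))
      = avg (fun x => (Lam (u x + v x) + Lam (u x - v x)) / 2) := by
    rw [avg_succ 0, avg_div_const, avg_add]
    have e1 : (fun x => Lam (u x + v x)) = slice (fun x => Lam (G x)) 0 1 := by
      funext x; rw [hu, hv]; unfold slice; beta_reduce; congr 1; ring
    have e2 : (fun x => Lam (u x - v x)) = slice (fun x => Lam (G x)) 0 (-1) := by
      funext x; rw [hu, hv]; unfold slice; beta_reduce; congr 1; ring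
    rw [e1, e2]
  have A4 : avg (fun x => u x + ρ * v x) = avg u + ρ * avg v := by
    rw [avg_add, avg_const_mul]
  have A5 : avg (fun x => u x - ρ * v x) = avg u - ρ * avg v := by
    rw [avg_sub, avg_const_mul]
  have A6 : avg (fun x => cf (u x) (v x))
      = Real.log 2 - avg (fun x => (Lam (u x + v x) + Lam (u x - v x)) / 2) := by
    unfold cf; rw [avg_sub, avg_const]
  have A7 : avg (fun x => Gf ρ (u x) (v x))
      = avg (fun x => (Lam (u x + v x) + Lam (u x - v x)) / 2)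
        - (avg (fun x => Lam (u x + ρ * v x)) + avg (fun x => Lam (u x - ρ * v x))) / 2 := by
    unfold Gf
    rw [avg_sub]
    congr 1
    rw [avg_div_const, avg_add]
  obtain ⟨hl0, hl1⟩ := Lam_rho_bounds hρ0 hρ1
  have ihp := ih _ hbp
  have ihm := ih _ hbm
  have hJ := Lam_avg_le G hG
  have hr : Lam (avg u) + avg (fun x => cf (u x) (v x))
      = Real.log 2 - (avg (fun x => Lam (G x)) - Lam (avg G)) := by
    rw [A6, A3, A2]; ring
  have hst := star hρ0 hρ1 u v huv (by rw [hr]; linarith)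
  rw [hr] at hst
  rw [← hρ] at ihp ihm ⊢
  have key := step_real (lam := Lam ρ)
    (r := Real.log 2 - (avg (fun x => Lam (G x)) - Lam (avg G)))
    (rp := Real.log 2 - (avg (fun x => Lam (u x + ρ * v x)) - Lam (avg (fun x => u x + ρ * v x))))
    (rm := Real.log 2 - (avg (fun x => Lam (u x - ρ * v x)) - Lam (avg (fun x => u x - ρ * v x))))
    (α := (Lam (avg u + ρ * avg v) + Lam (avg u - ρ * avg v)) / 2 - Lam (avg u))
    (γ := avg (fun x => Gf ρ (u x) (v x)))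
    (sp := avg (fun y => Lam (noiseOp ε (fun x => u x + ρ * v x) y))
      - Lam (avg (fun x => u x + ρ * v x)))
    (sm := avg (fun y => Lam (noiseOp ε (fun x => u x - ρ * v x) y))
      - Lam (avg (fun x => u x - ρ * v x)))
    hl0 hl1 (resid_nonneg G hG) (resid_nonneg _ hbp) (resid_nonneg _ hbm)
    (avg_nonneg fun x => Gf_nonneg hρ0 hρ1 (huv x))
    (by rw [A7, A4, A5, A3, A2]; ring) ihp ihm hst
  rw [A4, A5] at key
  rw [A1, A2]
  rw [A2] at key
  linarith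

/-- For every `G : {-1,1}^n → [-1,1]` (a binary `U` with `E[U | X] = G`), in nats:
`I(U;Y) ≤ Lam ρ (1 - Jb (log 2 - I(U;X))^2)`.

Induction on `n`.  `n = 0`: both sides vanish (`Jb_log_two`).  Step: with `P = slice G 0 1`, `Q = slice G 0 (-1)`,
`u = (P+Q)/2`, `v = (P-Q)/2`, `ρ = 1 - 2ε`: `mixSlice ε G 0 1 = u + ρ v`, `mixSlice ε G 0 (-1) = u - ρ v`;
use `avg_succ`, `noiseOp_insertNth'`, the induction hypothesis for `u ± ρ v`, `star` and `step_real` with
`r = log 2 - tI G`, `rp, rm = log 2 - tI (u ± ρ v)`, `α` the left side of `star`, `γ = avg Gf`. -/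
theorem soft {ε : ℝ} (h0 : 1 / 4 ≤ ε) (h1 : ε ≤ 1 / 2) :
    ∀ (n : ℕ) (G : Cube n → ℝ), (∀ x, |G x| ≤ 1) →
      avg (fun y => Lam (noiseOp ε G y)) - Lam (avg G) ≤
        Lam (1 - 2 * ε) * (1 - Jb (Lam (1 - 2 * ε))
          (Real.log 2 - (avg (fun x => Lam (G x)) - Lam (avg G))) ^ 2) := by
  intro n
  induction n with
  | zero =>
    intro G _
    obtain ⟨hl0, hl1⟩ := Lam_rho_bounds (ρ := 1 - 2 * ε) (by linarith) (by linarith)
    rw [avg_zero, avg_zero, avg_zero, noiseOp_zero, sub_self, sub_zero, Jb_log_two hl0 hl1]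
    simp
  | succ m ih => exact soft_step h0 h1 m ih

/-- `bent g = Lam (2 g - 1) - log 2`. -/
lemma bent_eq_Lam (g : ℝ) : bent g = Lam (2 * g - 1) - Real.log 2 :=
  Vale.Agent.Lib.P322.bent_eq_Lam g

/-- The Courtade-Kumar inequality for all Boolean functions when `1/4 ≤ ε ≤ 1/2`.
`infoFY_formula`, `bent_eq_Lam`, `soft` with `G = 2 ind f 1 - 1`, `one_sub_h2`. -/
theorem ck_quarter {ε : ℝ} (h0 : 1 / 4 ≤ ε) (h1 : ε ≤ 1 / 2) {n : ℕ} (f : Cube n → ℤˣ) :
    infoFY ε f ≤ 1 - h2 ε := by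
  have hlog : 0 < Real.log 2 := Real.log_pos (by norm_num)
  obtain ⟨hl0, hl1⟩ := Lam_rho_bounds (ρ := 1 - 2 * ε) (by linarith) (by linarith)
  have hF := infoFY_formula (ε := ε) (by linarith) (by linarith) f
  have hG : ∀ x, |2 * ind f 1 x - 1| ≤ 1 := by
    intro x
    rcases ind_zero_or_one f 1 x with h | h <;> rw [h] <;> norm_num
  have hS := soft h0 h1 n (fun x => 2 * ind f 1 x - 1) hG
  have e1 : ∀ y, noiseOp ε (fun x => 2 * ind f 1 x - 1) y = 2 * noiseOp ε (ind f 1) y - 1 := by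
    intro y
    have h1 : (fun x => 2 * ind f 1 x - 1)
        = fun x => (fun x => 2 * ind f 1 x) x + (fun _ => (-1 : ℝ)) x := by
      funext x; ring
    rw [h1, noiseOp_add, noiseOp_const, noiseOp_const_mul]; ring
  have e2 : avg (fun x => 2 * ind f 1 x - 1) = 2 * avg (ind f 1) - 1 := by
    rw [avg_sub, avg_const, avg_const_mul]
  have e3 : avg (fun y => bent (noiseOp ε (ind f 1) y))
      = avg (fun y => Lam (noiseOp ε (fun x => 2 * ind f 1 x - 1) y)) - Real.log 2 := by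
    simp only [bent_eq_Lam, e1]
    rw [avg_sub, avg_const]
  rw [e3, bent_eq_Lam, ← e2] at hF
  rw [one_sub_h2, le_div_iff₀ hlog, hF]
  have hsq := sq_nonneg (Jb (Lam (1 - 2 * ε)) (Real.log 2
    - (avg (fun x => Lam (2 * ind f 1 x - 1)) - Lam (avg fun x => 2 * ind f 1 x - 1))))
  nlinarith

end Vale.Agent.Lib.P322.Pot
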