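import Mathlib

/-!
P322, potential method.  Algebra of the parametrisation
`a = (p + q)/2`, `d = (p - q)/2`, `p = sqrt ((1+u)^2 - v^2)`, `q = sqrt ((1-u)^2 - v^2)` of the square
`|u| + |v| ≤ 1`:  `u = a d`, `v^2 = (1 - a^2)(1 - d^2)`, `0 ≤ a ≤ 1`, `d^2 ≤ a^2`.
-/

namespace Vale.Agent.Lib.P322.Pot

/-- `p^2 - q^2 = 4 u`, `p^2 + q^2 = 2 + 2 u^2 - 2 v^2`, `p ≤ 1 + u`, `q ≤ 1 - u`, `p q ≥ 0`. -/
lemma param {u v : ℝ} (huv : |u| + |v| ≤ 1) :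
    ∃ a d : ℝ, 0 ≤ a ∧ a ≤ 1 ∧ d ^ 2 ≤ a ^ 2 ∧ u = a * d ∧ v ^ 2 = (1 - a ^ 2) * (1 - d ^ 2) ∧
      a = (Real.sqrt ((1 + u) ^ 2 - v ^ 2) + Real.sqrt ((1 - u) ^ 2 - v ^ 2)) / 2 := by
  have hu1 : |v| ≤ 1 + u := by
    have := neg_abs_le u
    linarith
  have hu2 : |v| ≤ 1 - u := by
    have := le_abs_self u
    linarith
  have hv0 : 0 ≤ |v| := abs_nonneg v
  have hvsq : v ^ 2 = |v| ^ 2 := (sq_abs v).symm
  have hP : 0 ≤ (1 + u) ^ 2 - v ^ 2 := by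
    rw [hvsq]; nlinarith
  have hQ : 0 ≤ (1 - u) ^ 2 - v ^ 2 := by
    rw [hvsq]; nlinarith
  set p := Real.sqrt ((1 + u) ^ 2 - v ^ 2) with hp
  set q := Real.sqrt ((1 - u) ^ 2 - v ^ 2) with hq
  have hp0 : 0 ≤ p := Real.sqrt_nonneg _
  have hq0 : 0 ≤ q := Real.sqrt_nonneg _
  have hp2 : p ^ 2 = (1 + u) ^ 2 - v ^ 2 := Real.sq_sqrt hP
  have hq2 : q ^ 2 = (1 - u) ^ 2 - v ^ 2 := Real.sq_sqrt hQ
  have hp1 : p ≤ 1 + u := by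
    apply abs_le_of_sq_le_sq' _ (by linarith) |>.2
    rw [hp2]; nlinarith [sq_nonneg v]
  have hq1 : q ≤ 1 - u := by
    apply abs_le_of_sq_le_sq' _ (by linarith) |>.2
    rw [hq2]; nlinarith [sq_nonneg v]
  refine ⟨(p + q) / 2, (p - q) / 2, by positivity, by linarith, ?_, ?_, ?_, rfl⟩
  · nlinarith [mul_nonneg hp0 hq0]
  · have : (p + q) / 2 * ((p - q) / 2) = (p ^ 2 - q ^ 2) / 4 := by ring
    rw [this, hp2, hq2]; ring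
  · have h1 : (1 - ((p + q) / 2) ^ 2) * (1 - ((p - q) / 2) ^ 2)
        = 1 - (p ^ 2 + q ^ 2) / 2 + ((p ^ 2 - q ^ 2) / 4) ^ 2 := by ring
    rw [h1, hp2, hq2]; ring

/-- With `D = d^2`: `1 - w = (a^2 + D - 2 a^2 D)/(1 - a^2 D)`, and `1 - w - a^2 = D (1 - a^2)^2/(1 - a^2 D) ≥ 0`. -/
lemma param_G1 {a d u v w : ℝ} (ha0 : 0 ≤ a) (ha1 : a ≤ 1) (hd : d ^ 2 ≤ a ^ 2) (hu : u = a * d)
    (hv : v ^ 2 = (1 - a ^ 2) * (1 - d ^ 2)) (hu1 : u ^ 2 < 1) (hw : w = v ^ 2 / (1 - u ^ 2)) :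
    1 - Real.sqrt (1 - w) ≤ 1 - a := by
  have hpos : 0 < 1 - u ^ 2 := by linarith
  have ha2 : a ^ 2 ≤ 1 := by nlinarith
  have hD0 : 0 ≤ d ^ 2 := sq_nonneg d
  have hw1 : w ≤ 1 - a ^ 2 := by
    rw [hw, div_le_iff₀ hpos, hv, hu]
    have : (a * d) ^ 2 = a ^ 2 * d ^ 2 := by ring
    rw [this]
    nlinarith [mul_nonneg (sub_nonneg.2 ha2) (mul_nonneg hD0 (sub_nonneg.2 ha2))]
  have : a ≤ Real.sqrt (1 - w) := by
    apply Real.le_sqrt_of_sq_le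
    linarith
  linarith

/-- `(1 - a)(1 - a^2 D) ≤ (1 - a^2)(1 - D)` reduces to `D (1 + a - a^2) ≤ a`, true because `D ≤ a^2` and
`a (1 + a - a^2) ≤ 1`. -/
lemma param_G2 {a d u v w : ℝ} (ha0 : 0 ≤ a) (ha1 : a ≤ 1) (hd : d ^ 2 ≤ a ^ 2) (hu : u = a * d)
    (hv : v ^ 2 = (1 - a ^ 2) * (1 - d ^ 2)) (hu1 : u ^ 2 < 1) (hw : w = v ^ 2 / (1 - u ^ 2)) :
    1 - a ≤ w := by
  have hpos : 0 < 1 - u ^ 2 := by linarith
  have ha2 : a ^ 2 ≤ 1 := by nlinarith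
  have hD0 : 0 ≤ d ^ 2 := sq_nonneg d
  rw [hw, le_div_iff₀ hpos, hv, hu]
  have h0 : (a * d) ^ 2 = a ^ 2 * d ^ 2 := by ring
  rw [h0]
  set D := d ^ 2 with hD
  have h1 : 0 ≤ 1 + a - a ^ 2 := by nlinarith
  have h2 : D * (1 + a - a ^ 2) ≤ a ^ 2 * (1 + a - a ^ 2) := mul_le_mul_of_nonneg_right hd h1
  have h3 : a ^ 2 * (1 + a - a ^ 2) ≤ a := by
    have : 0 ≤ a * ((1 - a) * (1 - a ^ 2)) :=
      mul_nonneg ha0 (mul_nonneg (sub_nonneg.2 ha1) (sub_nonneg.2 ha2))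
    nlinarith
  have h4 : D * (1 + a - a ^ 2) ≤ a := le_trans h2 h3
  have h5 : 0 ≤ (1 - a) * (a - D * (1 + a - a ^ 2)) :=
    mul_nonneg (sub_nonneg.2 ha1) (sub_nonneg.2 h4)
  nlinarith

lemma param_w {a d u v w : ℝ} (ha0 : 0 ≤ a) (ha1 : a ≤ 1) (hd : d ^ 2 ≤ a ^ 2) (hu : u = a * d)
    (hv : v ^ 2 = (1 - a ^ 2) * (1 - d ^ 2)) (hu1 : u ^ 2 < 1) (hw : w = v ^ 2 / (1 - u ^ 2)) :
    0 ≤ w ∧ w ≤ 1 := by
  have hpos : 0 < 1 - u ^ 2 := by linarith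
  have ha2 : a ^ 2 ≤ 1 := by nlinarith
  have hD0 : 0 ≤ d ^ 2 := sq_nonneg d
  have hD1 : d ^ 2 ≤ 1 := le_trans hd ha2
  constructor
  · rw [hw]; exact div_nonneg (sq_nonneg v) hpos.le
  · rw [hw, div_le_iff₀ hpos, hv, hu]
    have h0 : (a * d) ^ 2 = a ^ 2 * d ^ 2 := by ring
    rw [h0]
    nlinarith [mul_nonneg (sq_nonneg a) (sub_nonneg.2 hD1), mul_nonneg hD0 (sub_nonneg.2 ha2)]

/-- With `M = a - (1 + a) d^2 / 2`:  `0 ≤ M`, `v^2 = (1-a)^2 + 2 (1-a) M`, `a - M ≥ u^2`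
(that is `(1+a)/2 ≥ a^2`), and `1 - w - M^2 ≥ u^2`.  For the last one, with `D = d^2`,
`(a^2 + D - 2 a^2 D) - (1 - a^2 D) ((a - (1+a) D/2)^2 + a^2 D) = D (k0 - k1 D + k2 D^2)`,
`k0 = 1 + a - 2a^2 + a^4`, `k1 = (1+a)^2/4 + a^3`, `k2 = a^2 (1+a)^2/4`, and
`k0 - k1 D + k2 D^2 = (k0 - k1 + k2) + (1 - D)(k1 - k2 (1 + D))`,
`k0 - k1 + k2 = (1-a)^2 (5a^2 + 8a + 3)/4`, `k1 - 2 k2 = (1-a)(1 + 3a + 2a^2 + 2a^3)/4`. -/
lemma param_M {a d u v w : ℝ} (ha0 : 0 ≤ a) (ha1 : a ≤ 1) (hd : d ^ 2 ≤ a ^ 2) (hu : u = a * d)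
    (hv : v ^ 2 = (1 - a ^ 2) * (1 - d ^ 2)) (hu1 : u ^ 2 < 1) (hw : w = v ^ 2 / (1 - u ^ 2)) :
    0 ≤ a - (1 + a) * d ^ 2 / 2 ∧
    v ^ 2 = (1 - a) ^ 2 + 2 * (1 - a) * (a - (1 + a) * d ^ 2 / 2) ∧
    u ^ 2 ≤ a - (a - (1 + a) * d ^ 2 / 2) ∧
    u ^ 2 ≤ 1 - w - (a - (1 + a) * d ^ 2 / 2) ^ 2 := by
  have hpos : 0 < 1 - u ^ 2 := by linarith
  have ha2 : a ^ 2 ≤ 1 := by nlinarith
  have hD0 : 0 ≤ d ^ 2 := sq_nonneg d
  have hD1 : d ^ 2 ≤ 1 := le_trans hd ha2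
  have h0 : u ^ 2 = a ^ 2 * d ^ 2 := by rw [hu]; ring
  set D := d ^ 2 with hD
  refine ⟨?_, ?_, ?_, ?_⟩
  · have h1 : (1 + a) * D ≤ (1 + a) * a ^ 2 := mul_le_mul_of_nonneg_left hd (by linarith)
    have h2 : (1 + a) * a ^ 2 ≤ 2 * a := by
      have : 0 ≤ a * ((1 - a) * (2 + a)) :=
        mul_nonneg ha0 (mul_nonneg (sub_nonneg.2 ha1) (by linarith))
      nlinarith
    linarith
  · rw [hv]; ring
  · rw [h0]
    have : 0 ≤ D * ((1 - a) * (1 + 2 * a)) :=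
      mul_nonneg hD0 (mul_nonneg (sub_nonneg.2 ha1) (by linarith))
    nlinarith
  · have hw1 : w ≤ 1 - u ^ 2 - (a - (1 + a) * D / 2) ^ 2 := by
      rw [hw, div_le_iff₀ hpos, hv, h0]
      have k2 : 0 ≤ a ^ 2 * (1 + a) ^ 2 / 4 := by positivity
      have e1 : 0 ≤ (1 - a) ^ 2 * (5 * a ^ 2 + 8 * a + 3) / 4 := by positivity
      have e2 : 0 ≤ (1 - a) * (1 + 3 * a + 2 * a ^ 2 + 2 * a ^ 3) / 4 := by
        have : 0 ≤ 1 - a := sub_nonneg.2 ha1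
        positivity
      have e3 : 0 ≤ ((1 + a) ^ 2 / 4 + a ^ 3) - a ^ 2 * (1 + a) ^ 2 / 4 * (1 + D) := by
        have : a ^ 2 * (1 + a) ^ 2 / 4 * (1 + D) ≤ a ^ 2 * (1 + a) ^ 2 / 4 * 2 :=
          mul_le_mul_of_nonneg_left (by linarith) k2
        nlinarith
      have e4 : 0 ≤ D * ((1 - a) ^ 2 * (5 * a ^ 2 + 8 * a + 3) / 4 +
          (1 - D) * (((1 + a) ^ 2 / 4 + a ^ 3) - a ^ 2 * (1 + a) ^ 2 / 4 * (1 + D))) :=
        mul_nonneg hD0 (add_nonneg e1 (mul_nonneg (sub_nonneg.2 hD1) e3))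
      have e5 : (1 - a ^ 2 * D - (a - (1 + a) * D / 2) ^ 2) * (1 - a ^ 2 * D)
          - (1 - a ^ 2) * (1 - D) = D * ((1 - a) ^ 2 * (5 * a ^ 2 + 8 * a + 3) / 4 +
          (1 - D) * (((1 + a) ^ 2 / 4 + a ^ 3) - a ^ 2 * (1 + a) ^ 2 / 4 * (1 + D))) := by
        ring
      linarith
    linarith

/-- The algebraic core of the pointwise inequality.  Notation: `h = L - lam > 0`, `c0 = 2L - 1 ≤ h`,
`X = 1 - a`, `M = a - (1+a) d^2/2`, `δ = e1 - (L - h a - lam (1 - w))`, `s = δ / h`, `x = (e1 - er)/h`.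
1. `he1` gives `δ ≥ (h - c0)(w - X) ≥ 0` (`param_G2`).
2. `her` gives `x ≥ X + s`, which is the first claim.
3. `h y + lam y^2 + δ = h a + lam (1 - w) - Lu ≥ h a + lam (1-w) - L u^2 ≥ h M + lam M^2` by `param_M`;
   since `h (y+s) + lam (y+s)^2 ≥ h y + lam y^2 + δ`, monotonicity gives `y + s ≥ M`.
4. `x (x + 2y) ≥ (X+s)(X+s+2y) ≥ X^2 + 2 X (y+s) + 2 s y ≥ X^2 + 2 X M + 2 s y = v^2 + 2 s y`,
   and `s ≥ (1 - c0/h)(w - X)`, `y ≥ 1 - u^2 - v^2 ≥ 0`. -/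
lemma core {L lam a d u v w e1 er Lu y : ℝ}
    (hL0 : 1 / 2 < L) (hL1 : L < 1) (hlam0 : 0 ≤ lam) (hlam1 : lam ≤ 1 - L)
    (ha0 : 0 ≤ a) (ha1 : a ≤ 1) (hd : d ^ 2 ≤ a ^ 2) (hu : u = a * d)
    (hv : v ^ 2 = (1 - a ^ 2) * (1 - d ^ 2)) (hu1 : u ^ 2 < 1) (hw : w = v ^ 2 / (1 - u ^ 2))
    (he1 : L - (2 * L - 1) * a - (1 - L) * (1 - w) ≤ e1) (her : er ≤ lam * w)
    (hLu : Lu ≤ L * u ^ 2) (hy0 : 0 ≤ y) (hy : (L - lam) * y + lam * y ^ 2 = L - Lu - e1)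
    (hy1 : 1 - u ^ 2 - v ^ 2 ≤ y) :
    (2 * L - 1) / (L - lam) * (1 - a) + (1 - (2 * L - 1) / (L - lam)) * w
        ≤ (e1 - er) / (L - lam) ∧
    v ^ 2 + 2 * (1 - (2 * L - 1) / (L - lam)) * (1 - u ^ 2 - v ^ 2) * (w - (1 - a))
        ≤ (e1 - er) / (L - lam) * ((e1 - er) / (L - lam) + 2 * y) := by
  have hG2 := param_G2 ha0 ha1 hd hu hv hu1 hw
  obtain ⟨hM0, hMv, hM1, hM2⟩ := param_M ha0 ha1 hd hu hv hu1 hw
  obtain ⟨h, hh⟩ : ∃ h, h = L - lam := ⟨_, rfl⟩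
  rw [← hh] at hy ⊢
  have hpos : 0 < h := by rw [hh]; linarith
  obtain ⟨x, hx⟩ : ∃ x, x = (e1 - er) / h := ⟨_, rfl⟩
  obtain ⟨r, hr⟩ : ∃ r, r = (2 * L - 1) / h := ⟨_, rfl⟩
  obtain ⟨s, hs⟩ : ∃ s, s = (e1 - (L - h * a - lam * (1 - w))) / h := ⟨_, rfl⟩
  obtain ⟨M, hM⟩ : ∃ M, M = a - (1 + a) * d ^ 2 / 2 := ⟨_, rfl⟩
  rw [← hx, ← hr]
  rw [← hM] at hM0 hMv hM1 hM2
  have hx' : h * x = e1 - er := by rw [hx]; field_simp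
  have hr' : h * r = 2 * L - 1 := by rw [hr]; field_simp
  have hs' : h * s = e1 - (L - h * a - lam * (1 - w)) := by rw [hs]; field_simp
  -- step 1
  have hc : 0 ≤ h * (1 - r) := by
    have : h * (1 - r) = 1 - L - lam := by rw [mul_sub, hr', hh]; ring
    rw [this]; linarith
  have hr1 : 0 ≤ 1 - r := (mul_nonneg_iff_of_pos_left hpos).1 hc
  have hwX : 0 ≤ w - (1 - a) := by linarith
  have hs1 : (1 - r) * (w - (1 - a)) ≤ s := by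
    apply le_of_mul_le_mul_left _ hpos
    have e : h * ((1 - r) * (w - (1 - a))) = (1 - L - lam) * (w - (1 - a)) := by
      have : h * (1 - r) = 1 - L - lam := by rw [mul_sub, hr', hh]; ring
      rw [← mul_assoc, this]
    rw [e, hs', hh]
    have e' : (1 - L - lam) * (w - (1 - a)) = L - (2 * L - 1) * a - (1 - L) * (1 - w)
        - (L - (L - lam) * a - lam * (1 - w)) := by ring
    rw [e']
    linarith
  have hs0 : 0 ≤ s := le_trans (mul_nonneg hr1 hwX) hs1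
  -- step 2
  have hxs : (1 - a) + s ≤ x := by
    apply le_of_mul_le_mul_left _ hpos
    rw [mul_add, hs', hx', hh]
    have e' : (L - lam) * (1 - a) + (e1 - (L - (L - lam) * a - lam * (1 - w))) = e1 - lam * w := by
      ring
    rw [e']
    linarith
  have hfirst : r * (1 - a) + (1 - r) * w ≤ x := by
    have : r * (1 - a) + (1 - r) * w = (1 - a) + (1 - r) * (w - (1 - a)) := by ring
    rw [this]
    linarith
  refine ⟨hfirst, ?_⟩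
  -- step 3
  have h3 : h * M + lam * M ^ 2 ≤ h * (y + s) + lam * (y + s) ^ 2 := by
    have e1' : h * y + lam * y ^ 2 + h * s = h * a + lam * (1 - w) - Lu := by
      rw [hy, hs']; ring
    have e2 : h * (y + s) + lam * (y + s) ^ 2 =
        (h * y + lam * y ^ 2 + h * s) + lam * (2 * y * s + s ^ 2) := by ring
    have e3 : 0 ≤ lam * (2 * y * s + s ^ 2) := by positivity
    have e4 : h * u ^ 2 ≤ h * (a - M) := mul_le_mul_of_nonneg_left hM1 hpos.le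
    have e5 : lam * u ^ 2 ≤ lam * (1 - w - M ^ 2) := mul_le_mul_of_nonneg_left hM2 hlam0
    have e6 : L * u ^ 2 = h * u ^ 2 + lam * u ^ 2 := by rw [hh]; ring
    rw [e2, e1']
    linarith
  have hMys : M ≤ y + s := by
    by_contra hneg
    have hneg := not_le.1 hneg
    have hys0 : 0 ≤ y + s := add_nonneg hy0 hs0
    have e1' : h * (y + s) < h * M := mul_lt_mul_of_pos_left hneg hpos
    have e2 : (y + s) ^ 2 ≤ M ^ 2 := pow_le_pow_left₀ hys0 hneg.le 2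
    have e3 : lam * (y + s) ^ 2 ≤ lam * M ^ 2 := mul_le_mul_of_nonneg_left e2 hlam0
    linarith
  -- step 4
  have hX0 : 0 ≤ 1 - a := sub_nonneg.2 ha1
  have hXs0 : 0 ≤ (1 - a) + s := add_nonneg hX0 hs0
  have h4 : ((1 - a) + s) * ((1 - a) + s + 2 * y) ≤ x * (x + 2 * y) := by
    have hx0 : 0 ≤ x := le_trans hXs0 hxs
    apply mul_le_mul hxs (by linarith) (by linarith) hx0
  have h5 : (1 - r) * (w - (1 - a)) * (1 - u ^ 2 - v ^ 2) ≤ s * y := by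
    have e1' : (1 - r) * (w - (1 - a)) * (1 - u ^ 2 - v ^ 2) ≤ (1 - r) * (w - (1 - a)) * y :=
      mul_le_mul_of_nonneg_left hy1 (mul_nonneg hr1 hwX)
    have e2 : (1 - r) * (w - (1 - a)) * y ≤ s * y := mul_le_mul_of_nonneg_right hs1 hy0
    linarith
  have h6 : (1 - a) * M ≤ (1 - a) * (y + s) := mul_le_mul_of_nonneg_left hMys hX0
  have h7 : ((1 - a) + s) * ((1 - a) + s + 2 * y) =
      (1 - a) ^ 2 + 2 * ((1 - a) * (y + s)) + 2 * (s * y) + s ^ 2 := by ring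
  have h8 : 0 ≤ s ^ 2 := sq_nonneg s
  have h9 : v ^ 2 + 2 * (1 - r) * (1 - u ^ 2 - v ^ 2) * (w - (1 - a)) =
      v ^ 2 + 2 * ((1 - r) * (w - (1 - a)) * (1 - u ^ 2 - v ^ 2)) := by ring
  rw [h9]
  have h10 : v ^ 2 = (1 - a) ^ 2 + 2 * ((1 - a) * M) := by rw [hMv]; ring
  linarith

end Vale.Agent.Lib.P322.Pot
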