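import Vale.Agent.Lib.P322.KeyMu

/-!
P322, potential method.  Polynomial bounds for `Lam` and a numerical bound for `Lam (1/2)`.
-/

namespace Vale.Agent.Lib.P322.Pot

open Real Set Vale.Agent.Lib.P322

/-- From `Lam_mul_le'` with `t = 1` (and evenness). -/
lemma Lam_le_log_two_mul_sq {t : ℝ} (h0 : -1 ≤ t) (h1 : t ≤ 1) : Lam t ≤ Real.log 2 * t ^ 2 := by
  rcases le_total 0 t with h | h
  · have := Lam_mul_le (l := t) (t := 1) h h1 (by norm_num) le_rfl
    rw [mul_one, Lam_one] at this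
    linarith
  · have := Lam_mul_le (l := -t) (t := 1) (by linarith) (by linarith) (by norm_num) le_rfl
    rw [mul_one, Lam_one, Lam_neg] at this
    nlinarith

/-- the truncated series on `[0,1]` -/
lemma Lam_poly_le_aux {t : ℝ} (h0 : 0 ≤ t) (h1 : t ≤ 1) :
    t ^ 2 / 2 + t ^ 4 / 12 + t ^ 6 / 30 + t ^ 8 / 56 + t ^ 10 / 90 + t ^ 12 / 132 ≤ Lam t := by
  have key : ∀ s ∈ Icc (0:ℝ) 1, 0 ≤ Lam s -
      (s ^ 2 / 2 + s ^ 4 / 12 + s ^ 6 / 30 + s ^ 8 / 56 + s ^ 10 / 90 + s ^ 12 / 132) := by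
    apply nonneg_Icc_of_Ico
    · exact continuous_Lam.sub (by fun_prop)
    · apply nonneg_of_deriv2
        (D1 := fun s => Lam1 s - (s + s ^ 3 / 3 + s ^ 5 / 5 + s ^ 7 / 7 + s ^ 9 / 9 + s ^ 11 / 11))
        (D2 := fun s => (1 / (1 - s ^ 2)) - (1 + s ^ 2 + s ^ 4 + s ^ 6 + s ^ 8 + s ^ 10))
      · intro s hs
        have a := (hasDerivAt_Lam (t := s) (by linarith [hs.1]) hs.2)
        have b : HasDerivAt (fun s : ℝ => s ^ 2 / 2 + s ^ 4 / 12 + s ^ 6 / 30 + s ^ 8 / 56
            + s ^ 10 / 90 + s ^ 12 / 132)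
            (s + s ^ 3 / 3 + s ^ 5 / 5 + s ^ 7 / 7 + s ^ 9 / 9 + s ^ 11 / 11) s := by
          have e := ((((((hasDerivAt_id s).pow 2).div_const 2).add
            (((hasDerivAt_id s).pow 4).div_const 12)).add
            (((hasDerivAt_id s).pow 6).div_const 30)).add
            (((hasDerivAt_id s).pow 8).div_const 56)).add
            (((hasDerivAt_id s).pow 10).div_const 90) |>.add
            (((hasDerivAt_id s).pow 12).div_const 132)
          refine e.congr_deriv ?_
          simp only [id]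
          norm_num
          ring
        exact a.sub b
      · intro s hs
        have a := (hasDerivAt_Lam1 (t := s) (by linarith [hs.1]) hs.2)
        have b : HasDerivAt (fun s : ℝ => s + s ^ 3 / 3 + s ^ 5 / 5 + s ^ 7 / 7 + s ^ 9 / 9
            + s ^ 11 / 11) (1 + s ^ 2 + s ^ 4 + s ^ 6 + s ^ 8 + s ^ 10) s := by
          have e := (((((hasDerivAt_id s).add
            (((hasDerivAt_id s).pow 3).div_const 3)).add
            (((hasDerivAt_id s).pow 5).div_const 5)).add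
            (((hasDerivAt_id s).pow 7).div_const 7)).add
            (((hasDerivAt_id s).pow 9).div_const 9)).add
            (((hasDerivAt_id s).pow 11).div_const 11)
          refine e.congr_deriv ?_
          simp only [id]
          norm_num
        exact a.sub b
      · intro s hs
        have hs2 : 0 < 1 - s ^ 2 := by nlinarith [hs.1, hs.2]
        have : 1 + s ^ 2 + s ^ 4 + s ^ 6 + s ^ 8 + s ^ 10 ≤ 1 / (1 - s ^ 2) := by
          rw [le_div_iff₀ hs2]
          have h12 : 0 ≤ s ^ 12 := by positivity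
          nlinarith
        linarith
      · simp
      · simp
  have := key t ⟨h0, h1⟩
  linarith

/-- Truncated power series.  Second derivative test `nonneg_of_deriv2`:
`1/(1-t^2) - (1 + t^2 + t^4 + t^6 + t^8 + t^10) = t^12/(1-t^2) ≥ 0`; then continuity and evenness. -/
lemma Lam_poly_le {t : ℝ} (h0 : -1 ≤ t) (h1 : t ≤ 1) :
    t ^ 2 / 2 + (t ^ 2) ^ 2 / 12 + (t ^ 2) ^ 3 / 30 + (t ^ 2) ^ 4 / 56 + (t ^ 2) ^ 5 / 90
      + (t ^ 2) ^ 6 / 132 ≤ Lam t := by
  rcases le_total 0 t with h | h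
  · have := Lam_poly_le_aux h h1
    calc _ = t ^ 2 / 2 + t ^ 4 / 12 + t ^ 6 / 30 + t ^ 8 / 56 + t ^ 10 / 90 + t ^ 12 / 132 := by
          ring
      _ ≤ _ := this
  · have := Lam_poly_le_aux (t := -t) (by linarith) (by linarith)
    rw [Lam_neg] at this
    calc _ = (-t) ^ 2 / 2 + (-t) ^ 4 / 12 + (-t) ^ 6 / 30 + (-t) ^ 8 / 56 + (-t) ^ 10 / 90
          + (-t) ^ 12 / 132 := by ring
      _ ≤ _ := this

/-- `log 3 ≤ (8 log 2 - 13/256)/5`, because `3^5 = 243 = 256 (1 - 13/256)` and `log x ≤ x - 1`. -/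
lemma log_three_le : Real.log 3 ≤ (8 * Real.log 2 - 13 / 256) / 5 := by
  have h1 : Real.log (243 / 256) ≤ 243 / 256 - 1 := Real.log_le_sub_one_of_pos (by norm_num)
  have h2 : Real.log (243 / 256) = 5 * Real.log 3 - 8 * Real.log 2 := by
    rw [Real.log_div (by norm_num) (by norm_num)]
    have a : (243 : ℝ) = 3 ^ 5 := by norm_num
    have b : (256 : ℝ) = 2 ^ 8 := by norm_num
    rw [a, b, Real.log_pow, Real.log_pow]
    norm_num
  rw [h2] at h1
  linarith

/-- `Lam (1/2) = (3/4) log 3 - log 2 = 0.1308...`. -/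
lemma Lam_half_le : Lam (1 / 2) ≤ 132 / 1000 := by
  have h : Lam (1 / 2) = 3 / 4 * Real.log 3 - Real.log 2 := by
    unfold Lam phi
    have a : (1 + 1 / 2 : ℝ) = 3 / 2 := by norm_num
    have b : (1 - 1 / 2 : ℝ) = 1 / 2 := by norm_num
    rw [a, b, Real.log_div (by norm_num) (by norm_num), Real.log_div (by norm_num) (by norm_num),
      Real.log_one]
    ring
  rw [h]
  have h3 := log_three_le
  have h2 := Real.log_two_lt_d9
  linarith

/-- Monotonicity through `Lam_mul_le` (`ρ = (2ρ) (1/2)`). -/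
lemma Lam_le_of_le_half {ρ : ℝ} (h0 : 0 ≤ ρ) (h1 : ρ ≤ 1 / 2) : Lam ρ ≤ 132 / 1000 := by
  have h := Lam_mul_le (l := 2 * ρ) (t := 1 / 2) (by linarith) (by linarith) (by norm_num)
    (by norm_num)
  have e : 2 * ρ * (1 / 2) = ρ := by ring
  rw [e] at h
  have hh := Lam_half_le
  have hn : 0 ≤ Lam (1 / 2) := Lam_nonneg (by norm_num) (by norm_num)
  have hsq : (2 * ρ) ^ 2 ≤ 1 := by nlinarith
  nlinarith

end Vale.Agent.Lib.P322.Pot
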