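import Vale.Agent.Lib.P322.Pot.Basic
import Vale.Agent.Lib.P322.Pot.Series
import Vale.Agent.Lib.P322.Pot.AX
import Vale.Agent.Lib.P322.Pot.Param
import Vale.Agent.Lib.P322.Pot.Ident

/-!
P322, potential method.  The pointwise inequality.
-/

namespace Vale.Agent.Lib.P322.Pot

open Real Vale.Agent.Lib.P322

/-- `I(U; X_1 | Y_1)` for one atom `(u,v)`. -/
noncomputable def Gf (ρ u v : ℝ) : ℝ :=
  (Lam (u + v) + Lam (u - v)) / 2 - (Lam (u + ρ * v) + Lam (u - ρ * v)) / 2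

/-- `H(U | X_1)` for one atom `(u,v)`. -/
noncomputable def cf (u v : ℝ) : ℝ := Real.log 2 - (Lam (u + v) + Lam (u - v)) / 2

lemma bounds_of_abs {u v : ℝ} (huv : |u| + |v| ≤ 1) :
    (-1 ≤ u + v ∧ u + v ≤ 1) ∧ (-1 ≤ u - v ∧ u - v ≤ 1) := by
  have h1 := abs_le.mp (le_refl |u|)
  have h2 := abs_le.mp (le_refl |v|)
  refine ⟨⟨by linarith [h1.1, h2.1], by linarith [h1.2, h2.2]⟩,
    ⟨by linarith [h1.1, h2.2], by linarith [h1.2, h2.1]⟩⟩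

lemma Lam_le_log_two {t : ℝ} (h0 : -1 ≤ t) (h1 : t ≤ 1) : Lam t ≤ Real.log 2 := by
  have h := Lam_le_log_two_mul_sq h0 h1
  have hl : 0 < Real.log 2 := by positivity
  have ht : t ^ 2 ≤ 1 := by nlinarith
  nlinarith

lemma cf_nonneg {u v : ℝ} (huv : |u| + |v| ≤ 1) : 0 ≤ cf u v := by
  obtain ⟨⟨a1, a2⟩, ⟨b1, b2⟩⟩ := bounds_of_abs huv
  have h1 := Lam_le_log_two a1 a2
  have h2 := Lam_le_log_two b1 b2
  unfold cf; linarith

lemma cf_le {u v : ℝ} (huv : |u| + |v| ≤ 1) : cf u v ≤ Real.log 2 := by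
  obtain ⟨⟨a1, a2⟩, ⟨b1, b2⟩⟩ := bounds_of_abs huv
  have h1 := Lam_nonneg' a1 a2
  have h2 := Lam_nonneg' b1 b2
  unfold cf; linarith

/-- `cf u v ≥ log 2 (1 - u^2 - v^2)`. -/
lemma cf_ge {u v : ℝ} (huv : |u| + |v| ≤ 1) : Real.log 2 * (1 - u ^ 2 - v ^ 2) ≤ cf u v := by
  obtain ⟨⟨a1, a2⟩, ⟨b1, b2⟩⟩ := bounds_of_abs huv
  have h1 := Lam_le_log_two_mul_sq a1 a2
  have h2 := Lam_le_log_two_mul_sq b1 b2
  unfold cf; nlinarith

lemma sq_add_sq_le {u v : ℝ} (huv : |u| + |v| ≤ 1) : u ^ 2 + v ^ 2 ≤ 1 := by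
  have h1 := abs_nonneg u
  have h2 := abs_nonneg v
  have h3 : u ^ 2 = |u| ^ 2 := (sq_abs u).symm
  have h4 : v ^ 2 = |v| ^ 2 := (sq_abs v).symm
  rw [h3, h4]; nlinarith

/-- All the facts about one atom with `|u| < 1` that are used below. -/
lemma atom_facts {ρ u v : ℝ} (hρ0 : 0 ≤ ρ) (hρ : ρ ≤ 1 / 2) (huv : |u| + |v| ≤ 1) (hu : |u| < 1) :
    ∃ X w : ℝ, 0 ≤ w ∧ w ≤ 1 ∧ 1 - Real.sqrt (1 - w) ≤ X ∧ X ≤ w ∧ w * (1 - u ^ 2) = v ^ 2 ∧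
      (2 * Real.log 2 - 1) / (Real.log 2 - Lam ρ) * X
          + (1 - (2 * Real.log 2 - 1) / (Real.log 2 - Lam ρ)) * w
        ≤ Gf ρ u v / (Real.log 2 - Lam ρ) ∧
      v ^ 2 + 2 * (1 - (2 * Real.log 2 - 1) / (Real.log 2 - Lam ρ)) * (1 - u ^ 2 - v ^ 2) * (w - X)
        ≤ Gf ρ u v / (Real.log 2 - Lam ρ)
            * (Gf ρ u v / (Real.log 2 - Lam ρ) + 2 * Jb (Lam ρ) (cf u v)) := by
  have hL0 : (0.6931471803 : ℝ) < Real.log 2 := Real.log_two_gt_d9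
  have hL1 : Real.log 2 < 0.6931471808 := Real.log_two_lt_d9
  have hlam0 : 0 ≤ Lam ρ := Lam_nonneg hρ0 (by linarith)
  have hlam1 : Lam ρ ≤ 132 / 1000 := Lam_le_of_le_half hρ0 hρ
  have hlt : Lam ρ < Real.log 2 := by linarith
  obtain ⟨a, d, ha0, ha1, hd, hua, hva, haeq⟩ := param huv
  have hu1 : u ^ 2 < 1 := by
    have := abs_nonneg u
    rw [← sq_abs]; nlinarith
  have hupos : 0 < 1 - u ^ 2 := by linarith
  have hub := abs_lt.mp hu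
  have he1 := e1_lower huv hu
  rw [← haeq] at he1
  have her := eS_upper hρ0 (by linarith) huv hu
  have hLu := Lam_le_log_two_mul_sq (t := u) hub.1.le hub.2.le
  have hc0 := cf_nonneg huv
  have hy0 : 0 ≤ Jb (Lam ρ) (cf u v) := Jb_nonneg hlam0 hlt hc0
  have hy : (Real.log 2 - Lam ρ) * Jb (Lam ρ) (cf u v) + Lam ρ * Jb (Lam ρ) (cf u v) ^ 2
      = Real.log 2 - Lam u - ((Lam (u + v) + Lam (u - v)) / 2 - Lam u) := by
    have h := ub_Jb hlam0 hlt hc0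
    unfold ub at h
    rw [h]; unfold cf; ring
  have hz := sq_add_sq_le huv
  have hy1 : 1 - u ^ 2 - v ^ 2 ≤ Jb (Lam ρ) (cf u v) := by
    apply le_Jb hlam0 hlt hc0
    have h := cf_ge huv
    unfold ub
    have hz0 : 0 ≤ 1 - u ^ 2 - v ^ 2 := by linarith
    have hz1 : 1 - u ^ 2 - v ^ 2 ≤ 1 := by nlinarith [sq_nonneg u, sq_nonneg v]
    nlinarith [mul_nonneg hlam0 (mul_nonneg hz0 (sub_nonneg.mpr hz1))]
  obtain ⟨c1, c2⟩ := core (L := Real.log 2) (lam := Lam ρ) (a := a) (d := d) (u := u) (v := v)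
    (w := v ^ 2 / (1 - u ^ 2)) (e1 := (Lam (u + v) + Lam (u - v)) / 2 - Lam u)
    (er := (Lam (u + ρ * v) + Lam (u - ρ * v)) / 2 - Lam u) (Lu := Lam u)
    (y := Jb (Lam ρ) (cf u v)) (by linarith) (by linarith) hlam0 (by linarith) ha0 ha1 hd hua hva hu1
    rfl he1 her hLu hy0 hy hy1
  have hx : ((Lam (u + v) + Lam (u - v)) / 2 - Lam u
      - ((Lam (u + ρ * v) + Lam (u - ρ * v)) / 2 - Lam u)) = Gf ρ u v := by
    unfold Gf; ring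
  rw [hx] at c1 c2
  obtain ⟨w0, w1⟩ := param_w ha0 ha1 hd hua hva hu1 rfl
  refine ⟨1 - a, v ^ 2 / (1 - u ^ 2), w0, w1, param_G1 ha0 ha1 hd hua hva hu1 rfl,
    param_G2 ha0 ha1 hd hua hva hu1 rfl, ?_, c1, c2⟩
  field_simp

lemma Gf_zero (ρ u : ℝ) : Gf ρ u 0 = 0 := by
  unfold Gf; simp

lemma v_zero_of {u v : ℝ} (huv : |u| + |v| ≤ 1) (hu : 1 ≤ |u|) : v = 0 := by
  have := abs_nonneg v
  exact abs_eq_zero.mp (by linarith)

lemma const_facts {ρ : ℝ} (hρ0 : 0 ≤ ρ) (hρ : ρ ≤ 1 / 2) :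
    0 < Real.log 2 - Lam ρ ∧ 31 / 100 ≤ 1 - (2 * Real.log 2 - 1) / (Real.log 2 - Lam ρ) ∧
      1 - (2 * Real.log 2 - 1) / (Real.log 2 - Lam ρ) ≤ 1 ∧ 121 / 100 ≤ 1 / (Real.log 2 + Lam ρ) := by
  have hL0 : (0.6931471803 : ℝ) < Real.log 2 := Real.log_two_gt_d9
  have hL1 : Real.log 2 < 0.6931471808 := Real.log_two_lt_d9
  have hlam0 : 0 ≤ Lam ρ := Lam_nonneg hρ0 (by linarith)
  have hlam1 : Lam ρ ≤ 132 / 1000 := Lam_le_of_le_half hρ0 hρ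
  have hh : 0 < Real.log 2 - Lam ρ := by linarith
  refine ⟨hh, ?_, ?_, ?_⟩
  · have : (2 * Real.log 2 - 1) / (Real.log 2 - Lam ρ) ≤ 69 / 100 := by
      rw [div_le_iff₀ hh]; linarith
    linarith
  · have : 0 ≤ (2 * Real.log 2 - 1) / (Real.log 2 - Lam ρ) := div_nonneg (by linarith) hh.le
    linarith
  · rw [le_div_iff₀ (by linarith)]; linarith

lemma Gf_nonneg {ρ u v : ℝ} (hρ0 : 0 ≤ ρ) (hρ : ρ ≤ 1 / 2) (huv : |u| + |v| ≤ 1) : 0 ≤ Gf ρ u v := by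
  rcases lt_or_ge |u| 1 with hu | hu
  · obtain ⟨X, w, w0, w1, hX0, hX1, hwv, c1, c2⟩ := atom_facts hρ0 hρ huv hu
    obtain ⟨hh, e0a, e0b, hσ⟩ := const_facts hρ0 hρ
    have hXn : 0 ≤ X := by
      have : Real.sqrt (1 - w) ≤ 1 := by
        rw [Real.sqrt_le_left (by norm_num : (0:ℝ) ≤ 1)]; linarith
      linarith
    have h1 : 0 ≤ (2 * Real.log 2 - 1) / (Real.log 2 - Lam ρ) := by linarith
    have h2 : 0 ≤ Gf ρ u v / (Real.log 2 - Lam ρ) := by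
      have := mul_nonneg h1 hXn
      have := mul_nonneg (by linarith : 0 ≤ 1 - (2 * Real.log 2 - 1) / (Real.log 2 - Lam ρ)) w0
      linarith
    have := mul_nonneg h2 hh.le
    rwa [div_mul_cancel₀ _ hh.ne'] at this
  · rw [v_zero_of huv hu, Gf_zero]

/-- The pointwise inequality. -/
theorem pw5 {ρ u v μ : ℝ} (hρ0 : 0 ≤ ρ) (hρ : ρ ≤ 1 / 2) (huv : |u| + |v| ≤ 1) (hμ : |μ| ≤ 1) :
    v ^ 2 ≤ (Gf ρ u v / (Real.log 2 - Lam ρ)) *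
      ((1 - μ ^ 2) * (Gf ρ u v / (Real.log 2 - Lam ρ) + 2 * Jb (Lam ρ) (cf u v))
        + 2 * (1 / (Real.log 2 + Lam ρ)) * Lam μ * (1 - u ^ 2)) := by
  rcases lt_or_ge |u| 1 with hu | hu
  · obtain ⟨X, w, w0, w1, hX0, hX1, hwv, c1, c2⟩ := atom_facts hρ0 hρ huv hu
    obtain ⟨hh, e0a, e0b, hσ⟩ := const_facts hρ0 hρ
    have hμb := abs_le.mp hμ
    have hm0 : 0 ≤ μ ^ 2 := sq_nonneg μ
    have hm1 : μ ^ 2 ≤ 1 := by nlinarith
    have hf := Lam_poly_le hμb.1 hμb.2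
    have hfn : 0 ≤ Lam μ := Lam_nonneg' hμb.1 hμb.2
    have ss := starstar e0a e0b hσ w0 w1 hX0 hX1 hm0 hm1 hf
    have hu1 : 0 < 1 - u ^ 2 := by
      have := abs_nonneg u
      rw [← sq_abs]; nlinarith
    set x := Gf ρ u v / (Real.log 2 - Lam ρ) with hx
    set y := Jb (Lam ρ) (cf u v) with hy
    set e0 := 1 - (2 * Real.log 2 - 1) / (Real.log 2 - Lam ρ) with he0
    set σ := 1 / (Real.log 2 + Lam ρ) with hσd
    have c1' : (1 - e0) * X + e0 * w ≤ x := by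
      have : (2 * Real.log 2 - 1) / (Real.log 2 - Lam ρ) = 1 - e0 := by rw [he0]; ring
      rw [this] at c1; exact c1
    have hz : 1 - u ^ 2 - v ^ 2 = (1 - u ^ 2) * (1 - w) := by rw [← hwv]; ring
    rw [hz] at c2
    have k1 : (1 - μ ^ 2) * (v ^ 2 + 2 * e0 * ((1 - u ^ 2) * (1 - w)) * (w - X))
        ≤ (1 - μ ^ 2) * (x * (x + 2 * y)) := mul_le_mul_of_nonneg_left c2 (by linarith)
    have hcoef : 0 ≤ 2 * σ * Lam μ * (1 - u ^ 2) := by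
      have : 0 ≤ σ := by linarith
      positivity
    have k2 : 2 * σ * Lam μ * (1 - u ^ 2) * ((1 - e0) * X + e0 * w)
        ≤ 2 * σ * Lam μ * (1 - u ^ 2) * x := mul_le_mul_of_nonneg_left c1' hcoef
    have k3 : (1 - u ^ 2) * (μ ^ 2 * w) ≤ (1 - u ^ 2) *
        (2 * (1 - μ ^ 2) * e0 * (1 - w) * (w - X) + 2 * σ * Lam μ * ((1 - e0) * X + e0 * w)) :=
      mul_le_mul_of_nonneg_left ss hu1.le
    have k4 : (1 - u ^ 2) * (μ ^ 2 * w) = μ ^ 2 * v ^ 2 := by rw [← hwv]; ring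
    nlinarith [k1, k2, k3, k4]
  · have hv := v_zero_of huv hu
    rw [hv, Gf_zero]; simp

end Vale.Agent.Lib.P322.Pot
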