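import Vale.Agent.Lib.P322.Pot.Pointwise
import Vale.Agent.Lib.P322.CubeBasic

/-!
P322, potential method.  The one-coordinate inequality for a law of atoms `(u,v)`.
-/

namespace Vale.Agent.Lib.P322.Pot

open Real Finset Vale.Agent.Lib.P322

/-- Cauchy-Schwarz for averages: if `r_i^2 ≤ f_i g_i` with `f_i, g_i ≥ 0` then `(avg r)^2 ≤ avg f * avg g`. -/
lemma avg_sq_le {m : ℕ} (r f g : Cube m → ℝ) (hf : ∀ x, 0 ≤ f x) (hg : ∀ x, 0 ≤ g x)
    (h : ∀ x, r x ^ 2 ≤ f x * g x) : avg r ^ 2 ≤ avg f * avg g := by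
  have h4 : (∑ x, r x) ^ 2 ≤ (∑ x, f x) * ∑ x, g x :=
    Finset.sum_sq_le_sum_mul_sum_of_sq_le_mul Finset.univ (fun x _ => hf x) (fun x _ => hg x)
      (fun x _ => h x)
  unfold avg
  have hc : (0:ℝ) ≤ ((1 / 2 : ℝ) ^ m) ^ 2 := by positivity
  calc ((1 / 2 : ℝ) ^ m * ∑ x, r x) ^ 2 = ((1 / 2 : ℝ) ^ m) ^ 2 * (∑ x, r x) ^ 2 := by ring
    _ ≤ ((1 / 2 : ℝ) ^ m) ^ 2 * ((∑ x, f x) * ∑ x, g x) := mul_le_mul_of_nonneg_left h4 hc
    _ = (1 / 2 : ℝ) ^ m * (∑ x, f x) * ((1 / 2 : ℝ) ^ m * ∑ x, g x) := by ring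

/-- `(avg u)^2 ≤ avg (u^2)`. -/
lemma sq_avg_le {m : ℕ} (u : Cube m → ℝ) : avg u ^ 2 ≤ avg (fun x => u x ^ 2) := by
  have := avg_sq_le u (fun x => u x ^ 2) (fun _ => 1) (fun x => sq_nonneg _) (fun _ => zero_le_one)
    (fun x => by simp)
  rwa [avg_const, mul_one] at this

lemma abs_avg_le {m : ℕ} (u : Cube m → ℝ) : |avg u| ≤ avg (fun x => |u x|) := by
  rw [abs_le]
  constructor
  · have h1 : avg (fun x => (-1) * |u x|) ≤ avg u := avg_mono fun x => by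
      have := neg_abs_le (u x)
      linarith
    rw [avg_const_mul] at h1
    linarith
  · exact avg_mono fun x => le_abs_self _

lemma abs_avg_add_le {m : ℕ} (u v : Cube m → ℝ) (huv : ∀ x, |u x| + |v x| ≤ 1) :
    |avg u| + |avg v| ≤ 1 := by
  have h1 := abs_avg_le u
  have h2 := abs_avg_le v
  have h3 : avg (fun x => |u x| + |v x|) ≤ avg (fun _ : Cube m => (1:ℝ)) := avg_mono huv
  rw [avg_add, avg_const] at h3
  linarith

/-- Tangent line at `J = Jb lam (δ + avg c)`:  `c_i = ub y_i ≥ ub J + (h + 2 lam J)(y_i - J)`, `y_i = Jb lam (c_i)`;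
averaging, `J - avg y ≥ δ/(h + 2 lam J) ≥ δ/(h + 2 lam)` because `J ≤ 1`. -/
lemma avg_Jb_le {lam δ : ℝ} (h0 : 0 ≤ lam) (h1 : lam < Real.log 2) (hδ : 0 ≤ δ) {m : ℕ}
    (c : Cube m → ℝ) (hc : ∀ x, 0 ≤ c x) (hle : δ + avg c ≤ Real.log 2) :
    avg (fun x => Jb lam (c x)) + 1 / (Real.log 2 + lam) * δ ≤ Jb lam (δ + avg c) := by
  have hac : 0 ≤ avg c := avg_nonneg hc
  have hr : 0 ≤ δ + avg c := by linarith
  set J := Jb lam (δ + avg c) with hJ
  have hJ0 : 0 ≤ J := Jb_nonneg h0 h1 hr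
  have hJ1 : J ≤ 1 := Jb_le_one h0 h1 hr hle
  have hubJ : ub lam J = δ + avg c := ub_Jb h0 h1 hr
  set k := (Real.log 2 - lam) + 2 * lam * J with hk
  have hkpos : 0 < k := by
    have : 0 ≤ 2 * lam * J := by positivity
    rw [hk]; linarith
  have hkle : k ≤ Real.log 2 + lam := by
    have : lam * J ≤ lam * 1 := mul_le_mul_of_nonneg_left hJ1 h0
    rw [hk]; linarith
  have hpt : ∀ x, (δ + avg c - k * J) + k * Jb lam (c x) ≤ c x := by
    intro x
    have hx : ub lam (Jb lam (c x)) = c x := ub_Jb h0 h1 (hc x)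
    have hsq : 0 ≤ lam * (Jb lam (c x) - J) ^ 2 := by positivity
    rw [← hubJ]
    nth_rewrite 2 [← hx]
    unfold ub
    rw [hk]
    nlinarith [hsq]
  have havg : avg (fun x => (δ + avg c - k * J) + k * Jb lam (c x)) ≤ avg c := avg_mono hpt
  rw [avg_add, avg_const, avg_const_mul] at havg
  set Y := avg (fun x => Jb lam (c x)) with hY
  have hD : δ ≤ k * (J - Y) := by linarith
  have hD0 : 0 ≤ J - Y := by
    by_contra hneg
    have hneg' : J - Y < 0 := not_le.mp hneg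
    have : k * (J - Y) < 0 := mul_neg_of_pos_of_neg hkpos hneg'
    linarith
  have hD2 : δ ≤ (Real.log 2 + lam) * (J - Y) :=
    hD.trans (mul_le_mul_of_nonneg_right hkle hD0)
  have hpos : 0 < Real.log 2 + lam := by linarith
  have : 1 / (Real.log 2 + lam) * δ ≤ J - Y := by
    rw [one_div, inv_mul_le_iff₀ hpos]
    exact hD2
  linarith

lemma Lam_lt_log_two {ρ : ℝ} (hρ0 : 0 ≤ ρ) (hρ : ρ ≤ 1 / 2) : Lam ρ < Real.log 2 := by
  have h := Lam_mul_le (l := ρ) (t := 1) hρ0 (by linarith) zero_le_one le_rfl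
  rw [mul_one, Lam_one] at h
  have hl : 0 < Real.log 2 := Real.log_pos (by norm_num)
  have h2 : ρ ^ 2 ≤ 1 / 4 := by nlinarith
  nlinarith

/-- The one-coordinate inequality.  Put `μ = avg u`, `ν = avg v`, `h = log 2 - Lam ρ`, `σ = 1/(log 2 + Lam ρ)`,
`x_i = Gf ρ u_i v_i / h`, `y_i = Jb (cf u_i v_i)`, `b = avg x`, `J = Jb (Lam μ + avg c)`.
If `|μ| = 1` then `ν = 0` (`abs_avg_add_le`) and the left side is `0`.  Otherwise:
* left side `≤ Lam ρ * ν^2/(1 - μ^2)` (`eS_upper`);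
* `pw5` and `avg_sq_le`: `ν^2 ≤ b * avg Z`, `Z_i = (1-μ^2)(x_i + 2 y_i) + 2 σ Lam μ (1 - u_i^2)`;
* `avg Z ≤ (1-μ^2)(b + 2 avg y + 2 σ Lam μ) ≤ (1-μ^2)(b + 2 J)` by `sq_avg_le`, `avg_Jb_le`
  (`Lam μ + avg c ≤ log 2` because `Lam` is convex: `Lam μ ≤ avg (Lam u) ≤ avg ((Lam (u+v) + Lam (u-v))/2)`;
  alternatively from `Gf`-free facts such as `Lam_pair_eq`). -/
theorem star {ρ : ℝ} (hρ0 : 0 ≤ ρ) (hρ : ρ ≤ 1 / 2) {m : ℕ} (u v : Cube m → ℝ)
    (huv : ∀ x, |u x| + |v x| ≤ 1)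
    (hle : Lam (avg u) + avg (fun x => cf (u x) (v x)) ≤ Real.log 2) :
    (Lam (avg u + ρ * avg v) + Lam (avg u - ρ * avg v)) / 2 - Lam (avg u) ≤
      Lam ρ * (avg (fun x => Gf ρ (u x) (v x)) / (Real.log 2 - Lam ρ)) *
        (avg (fun x => Gf ρ (u x) (v x)) / (Real.log 2 - Lam ρ)
          + 2 * Jb (Lam ρ) (Lam (avg u) + avg (fun x => cf (u x) (v x)))) := by
  have hl0 : 0 ≤ Lam ρ := Lam_nonneg hρ0 (by linarith)
  have hl1 : Lam ρ < Real.log 2 := Lam_lt_log_two hρ0 hρ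
  have hh : 0 < Real.log 2 - Lam ρ := by linarith
  have hμν := abs_avg_add_le u v huv
  set μ := avg u with hμ
  set ν := avg v with hν
  set lam := Lam ρ with hlam
  set h := Real.log 2 - lam with hhdef
  have hμ1 : |μ| ≤ 1 := by linarith [abs_nonneg ν]
  have hμ1' := abs_le.mp hμ1
  have hLμ : 0 ≤ Lam μ := Lam_nonneg' hμ1'.1 hμ1'.2
  have hc0 : ∀ x, 0 ≤ cf (u x) (v x) := fun x => cf_nonneg (huv x)
  have hG0 : ∀ x, 0 ≤ Gf ρ (u x) (v x) := fun x => Gf_nonneg hρ0 hρ (huv x)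
  have hac : 0 ≤ avg (fun x => cf (u x) (v x)) := avg_nonneg hc0
  have haG : 0 ≤ avg (fun x => Gf ρ (u x) (v x)) := avg_nonneg hG0
  set b := avg (fun x => Gf ρ (u x) (v x)) / h with hb
  have hb0 : 0 ≤ b := div_nonneg haG hh.le
  set J := Jb lam (Lam μ + avg (fun x => cf (u x) (v x))) with hJ
  have hJ0 : 0 ≤ J := Jb_nonneg hl0 hl1 (by linarith)
  have hrhs : 0 ≤ lam * b * (b + 2 * J) := by positivity
  rcases eq_or_lt_of_le hμ1 with hμe | hμlt
  · have hν0 : ν = 0 := by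
      have : |ν| ≤ 0 := by linarith
      exact abs_eq_zero.mp (le_antisymm this (abs_nonneg _))
    rw [hν0]
    simp only [mul_zero, add_zero, sub_zero]
    linarith
  · have hsq : μ ^ 2 < 1 := by
      have := sq_lt_one_iff_abs_lt_one μ
      exact this.mpr hμlt
    have hw : 0 < 1 - μ ^ 2 := by linarith
    have hup := eS_upper (ρ := ρ) (u := μ) (v := ν) hρ0 (by linarith) hμν hμlt
    set σ := 1 / (Real.log 2 + lam) with hσ
    have hσ0 : 0 ≤ σ := by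
      rw [hσ]
      have : 0 < Real.log 2 + lam := by linarith
      positivity
    have hy0 : ∀ x, 0 ≤ Jb lam (cf (u x) (v x)) := fun x => Jb_nonneg hl0 hl1 (hc0 x)
    have hu1 : ∀ x, 0 ≤ 1 - u x ^ 2 := by
      intro x
      have h1 : |u x| ≤ 1 := by linarith [huv x, abs_nonneg (v x)]
      have := (sq_le_one_iff_abs_le_one (u x)).mpr h1
      linarith
    have hcs := avg_sq_le v (fun x => Gf ρ (u x) (v x) / h)
      (fun x => (1 - μ ^ 2) * (Gf ρ (u x) (v x) / h + 2 * Jb lam (cf (u x) (v x)))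
        + 2 * σ * Lam μ * (1 - u x ^ 2))
      (fun x => div_nonneg (hG0 x) hh.le)
      (fun x => by
        have h1 : 0 ≤ Gf ρ (u x) (v x) / h := div_nonneg (hG0 x) hh.le
        have h2 := hy0 x
        have h3 := hu1 x
        have h4 : 0 ≤ (1 - μ ^ 2) * (Gf ρ (u x) (v x) / h + 2 * Jb lam (cf (u x) (v x))) :=
          mul_nonneg hw.le (by linarith)
        have h5 : 0 ≤ 2 * σ * Lam μ * (1 - u x ^ 2) := by positivity
        linarith)
      (fun x => pw5 hρ0 hρ (huv x) hμ1)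
    rw [avg_div_const] at hcs
    have hZ : avg (fun x => (1 - μ ^ 2) * (Gf ρ (u x) (v x) / h + 2 * Jb lam (cf (u x) (v x)))
        + 2 * σ * Lam μ * (1 - u x ^ 2))
        = (1 - μ ^ 2) * (b + 2 * avg (fun x => Jb lam (cf (u x) (v x))))
          + 2 * σ * Lam μ * (1 - avg (fun x => u x ^ 2)) := by
      rw [avg_add, avg_const_mul, avg_const_mul, avg_add, avg_div_const, avg_const_mul, avg_sub,
        avg_const]
    rw [hZ] at hcs
    have hsa := sq_avg_le u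
    rw [← hμ] at hsa
    have hjb := avg_Jb_le (lam := lam) (δ := Lam μ) hl0 hl1 hLμ (fun x => cf (u x) (v x)) hc0 hle
    rw [← hσ, ← hJ] at hjb
    set Y := avg (fun x => Jb lam (cf (u x) (v x))) with hY
    set U2 := avg (fun x => u x ^ 2) with hU2
    have hZle : (1 - μ ^ 2) * (b + 2 * Y) + 2 * σ * Lam μ * (1 - U2)
        ≤ (1 - μ ^ 2) * (b + 2 * J) := by
      have h1 : 2 * σ * Lam μ * (1 - U2) ≤ 2 * σ * Lam μ * (1 - μ ^ 2) :=
        mul_le_mul_of_nonneg_left (by linarith) (by positivity)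
      have h2 : (1 - μ ^ 2) * (Y + σ * Lam μ) ≤ (1 - μ ^ 2) * J :=
        mul_le_mul_of_nonneg_left hjb hw.le
      nlinarith [h1, h2]
    have hν2 : ν ^ 2 ≤ b * ((1 - μ ^ 2) * (b + 2 * J)) :=
      hcs.trans (mul_le_mul_of_nonneg_left hZle hb0)
    have hdiv : ν ^ 2 / (1 - μ ^ 2) ≤ b * (b + 2 * J) := by
      rw [div_le_iff₀ hw]
      linarith
    calc (Lam (μ + ρ * ν) + Lam (μ - ρ * ν)) / 2 - Lam μ ≤ lam * (ν ^ 2 / (1 - μ ^ 2)) := hup
      _ ≤ lam * (b * (b + 2 * J)) := mul_le_mul_of_nonneg_left hdiv hl0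
      _ = lam * b * (b + 2 * J) := by ring

end Vale.Agent.Lib.P322.Pot
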